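import Vale.Agent.P092.H805.RowK
import Vale.Agent.P092.H34.PicE
import Vale.Agent.P092.H859.CNE

/-!
P092 (helper805), Teams N and W: the first leg of the concrete picture of `H34/PicD` over ANY second
countable locally compact group `E`: multiplication operators, bounded vectors, slow variation,
locality, escape, symmetry, and `SysF` in the letters of `H859/CNA` (any regular set `Br`) and
`H859/CLB`.
-/

set_option linter.all false

open scoped InnerProductSpace ENNReal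
open Filter Topology ContinuousLinearMap MeasureTheory TopologicalSpace

namespace Vale.Agent.P092.H805.RowN

open Vale.Agent.P092.SR Vale.Agent.P092.H160
open Vale.Agent.P092.H859.CL (Slow Leg Esc Sym Prj Rep BB FF BB_mono st pw)
open Vale.Agent.P092.RC (VR arep_VR VR_one KK pic lam₁ lam₂ XX Om Pic)
open Vale.Agent.P092.H790 (CData Ri baseL lxt)
open Vale.Agent.P092.H432 (ARep)
open Vale.Agent.P092.H142 (uc uc_W uc_mul esc_uc)
open Vale.Agent.P092.H43 (BfL Loc2)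
open Vale.Agent.P092.H538 (fst)
open Vale.Agent.P092.H805.Row

/-! ### `SysF` with a general regular set -/

section cn

variable {Γ D K K' : Type} [Group Γ] [Group D] [NormedAddCommGroup K] [InnerProductSpace ℂ K]
  [CompleteSpace K] [NormedAddCommGroup K'] [InnerProductSpace ℂ K'] [CompleteSpace K']
  {mp : (Γ → ℝ) → (K →L[ℂ] K)} {R : D → (K →L[ℂ] K)} {Bd : Set K}
  {ms : D → Set Γ → ℝ} {A : Subgroup D} {Br : ℝ → Set Γ} {G1 G2 : Γ → ℝ}

/-- `SysF` for a general regular set from the one for `BB G1 G2`. -/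
theorem cn_of_cl (h : H859.CL.SysF mp R Bd ms A G1 G2)
    (nrm : ∀ ε : ℝ, 0 < ε → ∃ r, ∀ u ∈ A, ms u (Br r) ≤ ε) :
    H859.CN.SysF mp R Bd ms A Br G1 G2 where
  fn := h.fn
  sys :=
    { prj := h.sys.prj
      rep := h.sys.rep
      dense := h.sys.dense
      norm := h.sys.norm
      map := h.sys.map
      sep := h.sys.sep
      nrm := nrm
      nrv := h.sys.nrv }
  mpb := h.mpb

end cn

section row

variable {D Λ Γ Q ι : Type} [Group D] [Group Λ] [Countable Λ] [Group Γ] [Countable Γ] [Group Q]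
  [Countable Q] [Fintype ι] {t : ℝ} (d : CData D Λ)
  {R : Λ → (Ell2 ((Γ × Q) × ι) →L[ℂ] Ell2 ((Γ × Q) × ι))}

/-- The masses are monotone. -/
theorem msR_mono (hR : ARep t R) (u : D) {P P' : Set Γ} (h : P ⊆ P') :
    msR d R u P ≤ msR d R u P' := by
  rw [msR, msR]
  have e : ∀ S : Set Γ, H132.massX (fst (baseL d.μ (Γ × Q) ι)) (Ri d R) u (H538.ind fun g => g ∈ S) =
      ∑ i, ‖H776.NW.PF d (Q := Q) ι S (Ri d R u ((baseL d.μ (Γ × Q) ι).ep i))‖ ^ 2 :=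
    fun S => H776.NW.mass_PF d S u
  rw [e, e]
  refine Finset.sum_le_sum fun i _ => ?_
  have hp := (H21.fn_base (fst (baseL d.μ (Γ × Q) ι))).prj
  have h1 := hp.mono h (Ri d R u ((baseL d.μ (Γ × Q) ι).ep i))
  exact pow_le_pow_left₀ (norm_nonneg _) h1 2

/-- **`SysF` on the row model**, general regular sets. -/
theorem sysN_row (hR : ARep t R) {A : Subgroup D} {Br : ℝ → Set Γ} {G1 G2 : Γ → ℝ}
    (hgap : ∀ s u : Γ, ∃ C, ∀ x, |G1 (s * x * u) - G1 x| ≤ C ∧ |G2 (s * x * u) - G2 x| ≤ C)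
    (hBB : ∀ r, ∃ r', BB G1 G2 r' ⊆ Br r)
    (nrm : ∀ ε : ℝ, 0 < ε → ∃ r, ∀ u ∈ A, msR d R u (Br r) ≤ ε) :
    H859.CN.SysF (fst (baseL d.μ (Γ × Q) ι)).mp (Ri d R) (H357.BdL2 d.μ Γ Q ι) (msR d R) A
      Br G1 G2 :=
  cn_of_cl (sysF_row d hR hgap fun ε hε => by
    obtain ⟨r, hr⟩ := nrm ε hε
    obtain ⟨r', hr'⟩ := hBB r
    exact ⟨r', fun u hu => (msR_mono d hR u hr').trans (hr u hu)⟩) nrm

end row

/-! ### The concrete picture -/

section grp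

variable {Γ : Type} [Group Γ] {Λ : Type} [Group Λ] {α : Γ →* (Ell2 Λ →L[ℂ] Ell2 Λ)}
  (hα : Frame α)

theorem cov_VR : H761.CovFam (VR hα) (H761.ET (H761.TD (H931.dual_frame hα))) :=
  H761.covFam_coarse (H761.coarse_V (H931.dual_frame hα))

theorem cov_lx (A : Set Γ) (q : Γ) :
    H761.ET (H761.TD (H931.dual_frame hα)) A * H432.lx ((1 : Γ), q) =
      H432.lx ((1 : Γ), q) * H761.ET (H761.TD (H931.dual_frame hα)) A :=
  H761.et_lx (H761.coarse_V (H931.dual_frame hα)) A q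

end grp

section con

variable {E : Type} [Group E] [TopologicalSpace E] [IsTopologicalGroup E] [LocallyCompactSpace E]
  [SecondCountableTopology E] [T2Space E] [MeasurableSpace E] [BorelSpace E]
  {Γ : Subgroup E} [DiscreteTopology Γ] [Countable Γ] [MeasurableSpace (E ⧸ Γ)]
  [BorelSpace (E ⧸ Γ)] {ν : Measure (E ⧸ Γ)} [IsProbabilityMeasure ν]
  (hν : ∀ g : E, ν.map (fun x => g • x) = ν)
  {Λ : Type} [Group Λ] [Countable Λ] {α : Γ →* (Ell2 Λ →L[ℂ] Ell2 Λ)} (hα : Frame α)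

/-- bounded vectors -/
noncomputable def Bd (ν : Measure (E ⧸ Γ)) [IsProbabilityMeasure ν] (hα : Frame α) :
    Set (KK ν Λ) := JE ν hα '' H357.BdL2 ν Γ Γ Unit

/-- left bounded vectors -/
noncomputable def Bf (ν : Measure (E ⧸ Γ)) [IsProbabilityMeasure ν] (hα : Frame α) :
    Set (KK ν Λ) := JE ν hα '' BfL ν (Γ × Γ) Unit

/-- the masses -/
noncomputable def msE (hν : ∀ g : E, ν.map (fun x => g • x) = ν) (hα : Frame α) :
    E → Set Γ → ℝ :=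
  msR (Q := Γ) (ι := Unit) (H85.cdat ν hν) (VR hα)

theorem pi_eq : (fun g : E => pic hν hα g) =
    fun g => uc (JE ν hα) (Ri (H85.cdat ν hν) (VR hα) g) :=
  funext fun g => (uc_pi hν hα g).symm

/-- **`SysF` on the picture**, letters `CL`. -/
theorem sysE {A : Subgroup E} {G1 G2 : Γ → ℝ}
    (hgap : ∀ s u : Γ, ∃ C, ∀ x, |G1 (s * x * u) - G1 x| ≤ C ∧ |G2 (s * x * u) - G2 x| ≤ C)
    (nrm : ∀ ε : ℝ, 0 < ε → ∃ r, ∀ u ∈ A, msE hν hα u (BB G1 G2 r) ≤ ε) :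
    H859.CL.SysF (mpE ν hα) (fun g => pic hν hα g) (Bd ν hα) (msE hν hα) A G1 G2 := by
  rw [pi_eq]
  exact sysF_uc (JE ν hα) (sysF_row (Q := Γ) (ι := Unit) (H85.cdat ν hν) (arep_VR hα) hgap nrm)

/-- **`SysF` on the picture**, letters `CN` (general regular sets). -/
theorem sysNE {A : Subgroup E} {Br : ℝ → Set Γ} {G1 G2 : Γ → ℝ}
    (hgap : ∀ s u : Γ, ∃ C, ∀ x, |G1 (s * x * u) - G1 x| ≤ C ∧ |G2 (s * x * u) - G2 x| ≤ C)
    (hBB : ∀ r, ∃ r', BB G1 G2 r' ⊆ Br r)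
    (nrm : ∀ ε : ℝ, 0 < ε → ∃ r, ∀ u ∈ A, msE hν hα u (Br r) ≤ ε) :
    H859.CN.SysF (mpE ν hα) (fun g => pic hν hα g) (Bd ν hα) (msE hν hα) A Br G1 G2 := by
  refine cn_of_cl (sysE hν hα hgap fun ε hε => ?_) nrm
  obtain ⟨r, hr⟩ := nrm ε hε
  obtain ⟨r', hr'⟩ := hBB r
  exact ⟨r', fun u hu =>
    (msR_mono (H85.cdat ν hν) (arep_VR hα) u hr').trans (hr u hu)⟩

theorem row_leg : Leg (fst (baseL ν (Γ × Γ) Unit)).mp (Ri (H85.cdat ν hν) (VR hα))
    (fun γ : Γ => lxt ν (γ, (1 : Γ))) (H776.Leg1.WL (H85.cdat ν hν) Γ Γ Unit) :=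
  H776.Leg1.leg_row (H85.cdat ν hν) (arep_VR hα) (VR_one hα)

include hν in
/-- covariance of the multiplication operators -/
theorem mcovE (γ : Γ) (F : Γ → ℝ) (hF : ∀ g, |F g| ≤ 1) :
    lam₁ ν α γ * mpE ν hα F * lam₁ ν α γ⁻¹ = mpE ν hα (fun g => F (γ⁻¹ * g)) := by
  rw [← uc_lam₁ hα, ← uc_lam₁ hα, mpE, ← uc_mul, ← uc_mul]
  exact congrArg (uc (JE ν hα)) ((row_leg hν hα).cov γ F hF)

include hν in
/-- they commute with `X` and with the second leg -/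
theorem mWE : ∀ x ∈ XX ν Λ ∪ Set.range (lam₂ ν α), ∀ F : Γ → ℝ, (∀ g, |F g| ≤ 1) →
    x * mpE ν hα F = mpE ν hα F * x := by
  rintro x (⟨S, hS, rfl⟩ | ⟨s, rfl⟩) F hF
  · rw [← uc_ind hα hS, mpE, ← uc_mul, ← uc_mul]
    exact congrArg (uc (JE ν hα)) ((row_leg hν hα).Wm _ (Or.inl ⟨S, hS, rfl⟩) F hF)
  · rw [← uc_lam₂ hα, mpE, ← uc_mul, ← uc_mul]
    exact congrArg (uc (JE ν hα)) ((row_leg hν hα).Wm _ (Or.inr ⟨s, rfl⟩) F hF)

theorem slowE : Slow (mpE ν hα) (fun g => pic hν hα g) (Bd ν hα) := by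
  rw [pi_eq]
  exact slow_uc (JE ν hα) (slow_row (Q := Γ) (ι := Unit) (H85.cdat ν hν)
    (H43.ccont_cdat ν hν) (arep_VR hα) (VR_one hα))

theorem locE : Loc2 (mpE ν hα) (fun g => pic hν hα g) (Bd ν hα) (Bf ν hα) := by
  rw [pi_eq]
  exact loc2_uc (JE ν hα) (loc_row (Q := Γ) (ι := Unit) (H85.cdat ν hν) (arep_VR hα))

theorem escE {b : E} (hb : Tendsto (fun n : ℕ => b ^ n) atTop (cocompact E)) :
    Esc (st (mpE ν hα)) (fun g => pic hν hα g) (Bd ν hα) (Subgroup.zpowers b) (pw b) := by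
  rw [pi_eq]
  exact esc_uc (JE ν hα) (H541.esc_pow Γ ν hν (arep_VR hα) (cov_VR hα)
    (fun A q => cov_lx hα A q) hb (H357.BdL2 ν Γ Γ Unit))

theorem escE' {b : E} (hb : Tendsto (fun n : ℕ => b ^ n) atTop (cocompact E)) :
    Esc (st (mpE ν hα)) (fun g => pic hν hα g) (Bd ν hα) (Subgroup.zpowers b) (pw b⁻¹) := by
  rw [pi_eq]
  exact esc_uc (JE ν hα) (H541.esc_pow_inv Γ ν hν (arep_VR hα) (cov_VR hα)
    (fun A q => cov_lx hα A q) hb (H357.BdL2 ν Γ Γ Unit))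

theorem symE : Sym (mpE ν hα) (fun g => pic hν hα g) (Om ν Λ) := by
  rw [pi_eq, ← JE_Om hα (default : Unit)]
  exact sym_uc (JE ν hα) (sym_row (Q := Γ) (ι := Unit) (H85.cdat ν hν) (arep_VR hα))

theorem finE (ξ : KK ν Λ) {ε : ℝ} (hε : 0 < ε) :
    ∃ F : Finset Γ, ‖st (mpE ν hα) ((F : Set Γ))ᶜ ξ‖ ≤ ε := by
  obtain ⟨F, hF⟩ := (H103.ms₁ (ν := ν) hα).fin ξ ε hε
  exact ⟨F, by rw [st_mpE]; exact hF⟩

theorem om_Bf : Om ν Λ ∈ Bf ν hα := ⟨H790.ept ν (), H43.bfl_ept (), JE_Om hα ()⟩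

theorem st_eq : st (mpE ν hα) = H103.mS₁ ν hα := funext fun S => st_mpE hα S

theorem picE [NoncompactSpace E]
    (hΛ : ∀ g : Λ, g ≠ 1 → Set.Infinite {y : Λ | ∃ h, y = h * g * h⁻¹}) :
    Pic (pic hν hα) (lam₁ ν α) (XX ν Λ ∪ Set.range (lam₂ ν α)) (Om ν Λ) :=
  (H34.PicC.pic2 hν hα hΛ).leg₁

/-- **The source data of the first leg**, letters `CN`: only `b`, the duality `θ` and the
homogeneous space are to be given. -/
theorem srcE [NoncompactSpace E]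
    (hΛ : ∀ g : Λ, g ≠ 1 → Set.Infinite {y : Λ | ∃ h, y = h * g * h⁻¹}) {b : E}
    (hb : Tendsto (fun n : ℕ => b ^ n) atTop (cocompact E)) {θ : E →* E} {Z : Type}
    [MulAction E Z] {z0 : Z} (hθ : Continuous θ) (hd : θ b = b⁻¹)
    (trans : ∀ z : Z, ∃ g : E, g • z0 = z)
    (stab : ∀ g : E, g • z0 = z0 → ∃ v n, g = v * n ∧ v * b = b * v ∧
      Tendsto (fun N : ℕ => (b ^ N)⁻¹ * n * b ^ N) atTop (𝓝 1)) :
    H859.CN.Src b θ (pic hν hα) (lam₁ ν α) (XX ν Λ ∪ Set.range (lam₂ ν α)) (Om ν Λ) (mpE ν hα)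
      (Bd ν hα) (Bf ν hα) z0 where
  pic := picE hν hα hΛ
  mcov := mcovE hν hα
  mW := mWE hν hα
  slow := slowE hν hα
  loc := locE hν hα
  esc := fun g ξ hξ => H859.CL.tendsto_pw.1 ((escE hν hα hb).esc g ξ hξ)
  esc' := fun g ξ hξ => H859.CL.tendsto_pw.1 ((escE' hν hα hb).esc g ξ hξ)
  sym := symE hν hα
  cont := hθ
  dual := hd
  trans := trans
  stab := stab

end con

end Vale.Agent.P092.H805.RowN
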