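import Vale.Agent.P092.RC.Pict
import Vale.Agent.P092.H103.PicI
import Vale.Agent.P092.H357.Sep2
import Vale.Agent.P092.H357.Sep3
import Vale.Agent.P092.H776.NW2
import Vale.Agent.P092.H776.Leg1
import Vale.Agent.P092.H541.EscA
import Vale.Agent.P092.H43.Slow
import Vale.Agent.P092.H43.Loc2
import Vale.Agent.P092.H142.Tr
import Vale.Agent.P092.H761.CoarseD

/-!
P092 (helper805), [D0-INST] / [U7]: the row model over any second countable locally compact group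
`E` (the inputs of helper859's engine), and its transport to the concrete picture of `H34/PicD`.
-/

set_option linter.all false

open scoped InnerProductSpace ENNReal
open Filter Topology ContinuousLinearMap MeasureTheory TopologicalSpace

namespace Vale.Agent.P092.H805.Row

open Vale.Agent.P092.SR Vale.Agent.P092.H160
open Vale.Agent.P092.H432 (lx lx_dl lx_ep lx_mul ep mp ARep dl_eq_lx)
open Vale.Agent.P092.H132 (massX)
open Vale.Agent.P092.H538 (fst)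
open Vale.Agent.P092.H790 (CData Ri baseL lxt)
open Vale.Agent.P092.H859.CL
open Vale.Agent.P092.H43 (Loc2 BfL)
open Vale.Agent.P092.H142 (uc uc_W uc_apply uc_mul uc_one uc_add uc_smul uc_sub uc_adj sys_uc esc_uc
  JL JL_ae)
open Vale.Agent.P092.RC (VR arep_VR VR_one uR uR_V uR_lx₁ uR_lx₂ uR_ep KK pic lam₁ lam₂ XX Om)

/-! ### Transport along a unitary -/

section tr

variable {Γ D K K' : Type} [Group Γ] [Group D] [NormedAddCommGroup K] [InnerProductSpace ℂ K]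
  [CompleteSpace K] [NormedAddCommGroup K'] [InnerProductSpace ℂ K'] [CompleteSpace K']
  {mp : (Γ → ℝ) → (K →L[ℂ] K)} {R : D → (K →L[ℂ] K)} {Bd Bf : Set K}
  {ms : D → Set Γ → ℝ} {A : Subgroup D} {G1 G2 : Γ → ℝ} {l : Filter D} {Ω : K}
  (J : K ≃ₗᵢ[ℂ] K')

theorem fn_uc (h : Fn mp) : Fn (fun F => uc J (mp F)) where
  one := by rw [h.one, uc_one]
  add hF hG := by rw [h.add hF hG, uc_add]
  smul c _ _ hF := by rw [h.smul c hF, uc_smul]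
  mul hF hG := by rw [h.mul hF hG, uc_mul]
  adj hF := by rw [uc_adj, h.adj hF]

theorem sysF_uc (h : SysF mp R Bd ms A G1 G2) :
    SysF (fun F => uc J (mp F)) (fun v => uc J (R v)) (J '' Bd) ms A G1 G2 where
  fn := fn_uc J h.fn
  sys := sys_uc J h.sys
  mpb := by
    rintro F hF _ ⟨ξ, hξ, rfl⟩
    exact ⟨_, h.mpb F hF ξ hξ, (uc_W J _ _).symm⟩

theorem slow_uc [TopologicalSpace D] (h : Slow mp R Bd) :
    Slow (fun F => uc J (mp F)) (fun v => uc J (R v)) (J '' Bd) := by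
  intro ε hε
  filter_upwards [h ε hε] with g hg F hF
  rintro _ ⟨ζ, hζ, rfl⟩
  simp only [uc_W]
  rw [← map_sub, LinearIsometryEquiv.norm_map]
  exact hg F hF ζ hζ

theorem loc2_uc (h : Loc2 mp R Bd Bf) :
    Loc2 (fun F => uc J (mp F)) (fun v => uc J (R v)) (J '' Bd) (J '' Bf) where
  sub := Set.image_mono h.sub
  dense := by
    have h1 : (Submodule.span ℂ (J '' Bf) : Submodule ℂ K') =
        (Submodule.span ℂ Bf).map (J.toLinearEquiv : K →ₗ[ℂ] K') := by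
      rw [Submodule.map_span]; rfl
    rw [h1]
    have h2 : (((Submodule.span ℂ Bf).map (J.toLinearEquiv : K →ₗ[ℂ] K') : Submodule ℂ K') :
        Set K') = J '' (Submodule.span ℂ Bf : Submodule ℂ K) := rfl
    rw [h2]
    exact J.surjective.denseRange.dense_image J.continuous h.dense
  map := by
    rintro v _ ⟨ξ, hξ, rfl⟩
    exact ⟨_, h.map v ξ hξ, (uc_W J _ _).symm⟩
  loc := fun v ε hε => by
    obtain ⟨S, X, h1, h2⟩ := h.loc v ε hε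
    refine ⟨S, fun u => uc J (X u), fun u hu F hF => ?_, ?_⟩
    · change uc J (mp F) * uc J (X u) = uc J (X u) * uc J (mp fun g => F (g * u))
      rw [← uc_mul, h1 u hu F hF, uc_mul]
    · rintro _ ⟨ζ, hζ, rfl⟩
      have e1 : ∑ u ∈ S, uc J (X u) (J ζ) = J (∑ u ∈ S, X u ζ) := by
        rw [map_sum]
        exact Finset.sum_congr rfl fun u _ => uc_W J _ _
      have e2 : ∑ u ∈ S, adjoint (uc J (X u)) (J ζ) = J (∑ u ∈ S, adjoint (X u) ζ) := by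
        rw [map_sum]
        refine Finset.sum_congr rfl fun u _ => ?_
        rw [uc_adj, uc_W]
      change ‖uc J (R v) (J ζ) - _‖ ≤ ε ∧ ‖adjoint (uc J (R v)) (J ζ) - _‖ ≤ ε
      rw [uc_W, e1, ← map_sub, LinearIsometryEquiv.norm_map, uc_adj, uc_W, e2, ← map_sub,
        LinearIsometryEquiv.norm_map]
      exact h2 ζ hζ

theorem sym_uc (h : Sym mp R Ω) :
    Sym (fun F => uc J (mp F)) (fun v => uc J (R v)) (J Ω) := by
  intro u P
  change ‖uc J (st mp {g | g⁻¹ ∈ P}) (uc J (R u⁻¹) (J Ω))‖ = ‖uc J (st mp P) (uc J (R u) (J Ω))‖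
  rw [uc_W, uc_W, uc_W, uc_W, LinearIsometryEquiv.norm_map, LinearIsometryEquiv.norm_map]
  exact h u P

end tr

/-! ### The row model -/

section row

variable {D Λ Γ Q ι : Type} [Group D] [Group Λ] [Countable Λ] [Group Γ] [Countable Γ] [Group Q]
  [Countable Q] [Fintype ι] {t : ℝ} (d : CData D Λ)
  {R : Λ → (Ell2 ((Γ × Q) × ι) →L[ℂ] Ell2 ((Γ × Q) × ι))}

/-- the masses of leg 1 -/
noncomputable def msR (d : CData D Λ)
    (R : Λ → (Ell2 ((Γ × Q) × ι) →L[ℂ] Ell2 ((Γ × Q) × ι))) (u : D) (P : Set Γ) : ℝ :=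
  massX (fst (baseL d.μ (Γ × Q) ι)) (Ri d R) u (H538.ind fun g => g ∈ P)

theorem bb_trans {G1 G2 : Γ → ℝ}
    (hgap : ∀ s u : Γ, ∃ C, ∀ x, |G1 (s * x * u) - G1 x| ≤ C ∧ |G2 (s * x * u) - G2 x| ≤ C)
    (γ : Γ) (r : ℝ) : ∃ r', ∀ g ∈ BB G1 G2 r', γ⁻¹ * g ∈ BB G1 G2 r := by
  obtain ⟨C, hC⟩ := hgap γ⁻¹ 1
  refine ⟨r + C, fun g hg => ?_⟩
  have h := hC g
  rw [mul_one] at h
  have h1 := (abs_le.1 h.1).1
  have h2 := (abs_le.1 h.2).1
  have h3 : r + C < G1 g := hg.1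
  have h4 : r + C < G2 g := hg.2
  exact ⟨by linarith, by linarith⟩

/-- **`SysF` on the row model**, from the mass `nrm` alone. -/
theorem sysF_row (hR : ARep t R) {A : Subgroup D} {G1 G2 : Γ → ℝ}
    (hgap : ∀ s u : Γ, ∃ C, ∀ x, |G1 (s * x * u) - G1 x| ≤ C ∧ |G2 (s * x * u) - G2 x| ≤ C)
    (nrm : ∀ ε : ℝ, 0 < ε → ∃ r, ∀ u ∈ A, msR d R u (BB G1 G2 r) ≤ ε) :
    SysF (fst (baseL d.μ (Γ × Q) ι)).mp (Ri d R) (H357.BdL2 d.μ Γ Q ι) (msR d R) A G1 G2 where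
  fn := H21.fn_base _
  sys :=
    { prj := (H21.fn_base (fst (baseL d.μ (Γ × Q) ι))).prj
      rep := H21.rep_ri d hR
      dense := H21.dense_of_total (B := fst (baseL d.μ (Γ × Q) ι)) fun s a ha i =>
        H357.bdl2_ep s a ha i
      norm := fun ξ hξ => H357.bdl2_norm hξ
      map := fun v ξ hξ => H357.bdl2_map d hR v hξ
      sep := fun u η hη ζ hζ F G P T h1 h2 => H357.sep_set d hR u hη hζ F G P T h1 h2
      nrm := nrm
      nrv := fun ξ hξ ε hε => H776.NW.nrv_abs d hR (fun _ _ h => BB_mono h) (bb_trans hgap)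
        (A := (A : Set D)) nrm hξ hε }
  mpb := fun F hF ξ hξ => H357.bdl2_mp hF hξ

theorem bd_ae {ζ : Lp (Ell2 ((Γ × Q) × ι)) 2 d.μ} (hζ : ζ ∈ H357.BdL2 d.μ Γ Q ι) :
    ∀ᵐ x ∂d.μ, ‖(ζ x : Ell2 ((Γ × Q) × ι))‖ ≤ 1 := by
  have h0 : ∀ᵐ x ∂d.μ, H357.B2 (ζ x : Ell2 ((Γ × Q) × ι)) := hζ
  filter_upwards [h0] with x hx
  exact hx.norm_le

theorem slow_row [TopologicalSpace D] (hc : H43.CCont d) (hR : ARep t R) (h1 : R 1 = 1) :
    Slow (fst (baseL d.μ (Γ × Q) ι)).mp (Ri d R) (H357.BdL2 d.μ Γ Q ι) :=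
  H43.slow d hc hR.opNorm_le h1 fun ζ hζ => bd_ae d hζ

theorem bf_sub : BfL d.μ (Γ × Q) ι ⊆ H357.BdL2 d.μ Γ Q ι := by
  intro ζ hζ
  change ∀ᵐ x ∂d.μ, H357.B2 (ζ x : Ell2 ((Γ × Q) × ι))
  have h0 : ∀ᵐ x ∂d.μ, H43.LB (ζ x : Ell2 ((Γ × Q) × ι)) := hζ
  filter_upwards [h0] with x hx
  exact hx.b2

theorem loc_row (hR : ARep t R) :
    Loc2 (fst (baseL d.μ (Γ × Q) ι)).mp (Ri d R) (H357.BdL2 d.μ Γ Q ι) (BfL d.μ (Γ × Q) ι) :=
  H43.loc2 d hR (bf_sub d)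

theorem sym_row [Unique ι] (hR : ARep t R) :
    Sym (fst (baseL d.μ (Γ × Q) ι)).mp (Ri d R) (H790.ept d.μ (default : ι)) := fun u P =>
  H357.sym_one (B := fst (baseL d.μ (Γ × Q) ι)) (H538.trep_fst (H790.trep d hR)) u P

end row

/-! ### The concrete picture -/

section con

variable {E : Type} [Group E] [TopologicalSpace E] [IsTopologicalGroup E] [LocallyCompactSpace E]
  [SecondCountableTopology E] [T2Space E] [MeasurableSpace E] [BorelSpace E]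
  {Γ : Subgroup E} [DiscreteTopology Γ] [MeasurableSpace (E ⧸ Γ)] [BorelSpace (E ⧸ Γ)]
  {ν : Measure (E ⧸ Γ)} [IsProbabilityMeasure ν] [Countable Γ]
  (hν : ∀ g : E, ν.map (fun x => g • x) = ν)
  {Λ : Type} [Group Λ] {α : Γ →* (Ell2 Λ →L[ℂ] Ell2 Λ)} (hα : Frame α)

/-- the unitary from the row model to the picture -/
noncomputable def JE (ν : Measure (E ⧸ Γ)) (hα : Frame α) :
    Lp (Ell2 ((Γ × Γ) × Unit)) 2 ν ≃ₗᵢ[ℂ] KK ν Λ := JL ν (uR hα)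

theorem JE_ae (ξ : Lp (Ell2 ((Γ × Γ) × Unit)) 2 ν) :
    ⇑(JE ν hα ξ) =ᵐ[ν] fun x => uR hα (ξ x) := JL_ae _ _ _

theorem uc_eq {S : Lp (Ell2 ((Γ × Γ) × Unit)) 2 ν →L[ℂ] Lp (Ell2 ((Γ × Γ) × Unit)) 2 ν}
    {T : KK ν Λ →L[ℂ] KK ν Λ} (h : ∀ ξ, JE ν hα (S ξ) = T (JE ν hα ξ)) :
    uc (JE ν hα) S = T := by
  ext1 ξ
  obtain ⟨η, rfl⟩ := (JE ν hα).surjective ξ
  rw [uc_W, h]

theorem uc_cst {A : Ell2 ((Γ × Γ) × Unit) →L[ℂ] Ell2 ((Γ × Γ) × Unit)}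
    {B : Ell2 (Λ × Λ) →L[ℂ] Ell2 (Λ × Λ)} (h : ∀ ξ, uR hα (A ξ) = B (uR hα ξ)) :
    uc (JE ν hα) (A.compLpL 2 ν) = B.compLpL 2 ν := by
  refine uc_eq hα fun ξ => Lp.ext ?_
  filter_upwards [JE_ae hα (A.compLpL 2 ν ξ), JE_ae hα ξ,
    A.coeFn_compLpL (p := 2) (μ := ν) ξ, B.coeFn_compLpL (p := 2) (μ := ν) (JE ν hα ξ)]
    with x h1 h2 h3 h4
  rw [h1, h3, h4, h2, h]

theorem uc_lam₁ (γ : Γ) : uc (JE ν hα) (lxt ν (γ, (1 : Γ))) = lam₁ ν α γ :=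
  uc_cst hα (uR_lx₁ hα γ)

theorem uc_lam₂ (γ : Γ) : uc (JE ν hα) (lxt ν ((1 : Γ), γ)) = lam₂ ν α γ :=
  uc_cst hα (uR_lx₂ hα γ)

theorem uc_ind {S : Set (E ⧸ Γ)} (hS : MeasurableSet S) :
    uc (JE ν hα) (H790.ind ν (Ell2 ((Γ × Γ) × Unit)) S) = H790.ind ν (Ell2 (Λ × Λ)) S := by
  classical
  refine uc_eq hα fun ξ => Lp.ext ?_
  filter_upwards [JE_ae hα (H790.ind ν (Ell2 ((Γ × Γ) × Unit)) S ξ),
    JE_ae hα ξ, H790.ind_ae hS ξ, H790.ind_ae hS (JE ν hα ξ)] with x h1 h2 h3 h4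
  rw [h1, h3, h4]
  by_cases hx : x ∈ S
  · rw [Set.indicator_of_mem hx, Set.indicator_of_mem hx, h2]
  · rw [Set.indicator_of_notMem hx, Set.indicator_of_notMem hx, map_zero]

theorem uc_pi (g : E) :
    uc (JE ν hα) (Ri (H85.cdat ν hν) (VR hα) g) = pic hν hα g := by
  have hb : ∀ v, ‖VR hα v‖ ≤ 1 := fun v => (arep_VR hα).opNorm_le v
  have hb' : ∀ v, ‖VV α v‖ ≤ 1 := fun v => H34.Ind.norm_le_of_adj (H839.adj_VV hα) v
  refine uc_eq hα fun ξ => Lp.ext ?_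
  filter_upwards [JE_ae (ν := ν) hα (Ri (H85.cdat ν hν) (VR hα) g ξ),
    H790.ri_ae (H85.cdat ν hν) hb g ξ, H790.ri_ae (H85.cdat ν hν) hb' g (JE ν hα ξ),
    H790.ae_comp ((H85.cdat ν hν).mp g⁻¹) (JE_ae (ν := ν) hα ξ)] with x h1 h2 h3 h4
  refine h1.trans ((congrArg (uR hα) h2).trans ((uR_V hα _ _).trans (Eq.trans ?_ h3.symm)))
  exact congrArg _ h4.symm

theorem JE_Om (i : Unit) : JE ν hα (H790.ept ν i) = Om ν Λ := by
  refine Lp.ext ?_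
  filter_upwards [JE_ae hα (H790.ept ν i),
    Lp.coeFn_const (p := 2) (μ := ν) (ep i : Ell2 ((Γ × Γ) × Unit)),
    Lp.coeFn_const (p := 2) (μ := ν) (dl ((1, 1) : Λ × Λ) : Ell2 (Λ × Λ))]
    with x h1 h2 h3
  rw [h1]
  have h4 : (H790.ept ν i : Lp (Ell2 ((Γ × Γ) × Unit)) 2 ν) x =
    (ep i : Ell2 ((Γ × Γ) × Unit)) := h2
  rw [h4, uR_ep]
  exact h3.symm

/-- the basis -/
theorem uR_dl (γ s : Γ) (i : Unit) :
    uR hα (dl ((γ, s), i) : Ell2 ((Γ × Γ) × Unit)) = H103.bF₁ hα (γ, s) := by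
  have e1 : (dl ((γ, s), i) : Ell2 ((Γ × Γ) × Unit)) =
      lx (γ, (1 : Γ)) (lx ((1 : Γ), s) (ep i)) := by
    rw [lx_ep, lx_dl, Prod.mk_mul_mk, mul_one, one_mul]
  rw [e1, uR_lx₁, uR_lx₂, uR_ep, H103.bF₁_ap]
  rfl

theorem mp_dl {G ι : Type} [Group G] {F : G → ℝ} {C : ℝ} (hF : ∀ g, |F g| ≤ C) (g : G) (i : ι) :
    mp ι F (dl (g, i) : Ell2 (G × ι)) = (F g : ℂ) • (dl (g, i) : Ell2 (G × ι)) := by
  classical
  apply ext_inner_dl
  intro y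
  rw [mp, H553.mo_apply (F := fun x : G × ι => F x.1) (C := C) fun x => hF _]
  change (F y.1 : ℂ) * (dl (g, i) : Ell2 (G × ι)) y = (F g : ℂ) * (dl (g, i) : Ell2 (G × ι)) y
  rw [dl_apply]
  by_cases h : y = (g, i)
  · rw [h]
  · rw [if_neg h, mul_zero, mul_zero]

/-- The multiplication operators of the two models agree. -/
theorem uR_m0 (S : Set Γ) (ξ : Ell2 ((Γ × Γ) × Unit)) :
    uR hα (mp Unit (fun x : Γ × Γ => H553.ind (fun g => g ∈ S) x.1) ξ) =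
      H368.m0 (H103.bF₁ hα) Prod.fst S (uR hα ξ) := by
  have h1 : ((uR hα : Ell2 ((Γ × Γ) × Unit) →L[ℂ] Ell2 (Λ × Λ)) ∘L
      mp Unit (fun x : Γ × Γ => H553.ind (fun g => g ∈ S) x.1)) =
      H368.m0 (H103.bF₁ hα) Prod.fst S ∘L
        (uR hα : Ell2 ((Γ × Γ) × Unit) →L[ℂ] Ell2 (Λ × Λ)) := by
    apply op_ext
    rintro ⟨⟨γ, s⟩, i⟩
    change uR hα (mp Unit (fun x : Γ × Γ => H553.ind (fun g => g ∈ S) x.1) (dl ((γ, s), i))) =
      H368.m0 (H103.bF₁ hα) Prod.fst S (uR hα (dl ((γ, s), i)))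
    rw [mp_dl (F := fun x : Γ × Γ => H553.ind (fun g => g ∈ S) x.1) (C := 1)
      fun x => H553.abs_ind_le _ _]
    rw [map_smul, uR_dl]
    by_cases h : γ ∈ S
    · rw [H553.ind_pos (P := fun g => g ∈ S) h, H368.m0_mem (b := H103.bF₁ hα)
        (show Prod.fst (γ, s) ∈ S from h), Complex.ofReal_one, one_smul]
    · rw [H553.ind_neg (P := fun g => g ∈ S) h, H368.m0_notMem (b := H103.bF₁ hα)
        (show Prod.fst (γ, s) ∉ S from h), Complex.ofReal_zero, zero_smul]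
  exact congrArg (fun T : Ell2 ((Γ × Γ) × Unit) →L[ℂ] Ell2 (Λ × Λ) => T ξ) h1

/-- the multiplication operators on the picture -/
noncomputable def mpE (ν : Measure (E ⧸ Γ)) [IsProbabilityMeasure ν] (hα : Frame α)
    (F : Γ → ℝ) : KK ν Λ →L[ℂ] KK ν Λ :=
  uc (JE ν hα) ((fst (baseL ν (Γ × Γ) Unit)).mp F)

theorem st_mpE (S : Set Γ) : st (mpE ν hα) S = H103.mS₁ ν hα S :=
  uc_cst hα (uR_m0 hα S)

end con

end Vale.Agent.P092.H805.Row
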