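import Vale.Agent.P092.H805.Dis
import Vale.Agent.P092.H805.RowK
import Vale.Agent.P092.H34.PicE
import Vale.Agent.P092.H534.GK3
import Vale.Agent.P092.SD.Blocks

/-!
P092 (helper805), [D0-INST] / [U7]: the first leg of the concrete picture over ANY local field `k`.
All inputs which depend on the field are hypotheses in literal form: the mass `nrm` of the elements
with two large gaps, `SIZE` and `ORB`.
-/

set_option linter.all false

open scoped InnerProductSpace ENNReal LinearAlgebra.Projectivization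
open Filter Topology ContinuousLinearMap MeasureTheory TopologicalSpace

namespace Vale.Agent.P092.H805.HalfK

open Vale.Agent.P092.SD Vale.Agent.P092.SR Vale.Agent.P092.H160
open Vale.Agent.P092.H859.CL hiding cfc
open Vale.Agent.P092.RC (VR arep_VR VR_one KK pic lam₁ lam₂ XX Om)
open Vale.Agent.P092.H790 (Ri baseL lxt)
open Vale.Agent.P092.H142 (uc uc_W uc_mul esc_uc DomCut)
open Vale.Agent.P092.H43 (BfL)
open Vale.Agent.P092.H538 (fst)
open Vale.Agent.P092.H76.Pur (NIS)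
open Vale.Agent.P092.H805.Dis Vale.Agent.P092.H805.Row
open Vale.Agent.P092.H534.GK (ga gb bpk)

/-! ### The group -/

section grp

variable {k : Type} [NontriviallyNormedField k]

theorem pow_bw {w : kˣ} (hw : ‖(w : k)‖ < 1) :
    Tendsto (fun n : ℕ => (bw w : G3 k) ^ n) atTop (cocompact (G3 k)) := by
  have hc : Continuous fun g : G3 k => g.1 0 0 :=
    (continuous_apply_apply 0 0).comp continuous_subtype_val
  refine Tendsto.mono_right (tendsto_comap_iff.2 ?_) (Filter.comap_cocompact_le hc)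
  have h1 : ((fun g : G3 k => g.1 0 0) ∘ fun n : ℕ => (bw w : G3 k) ^ n) =
      fun n : ℕ => (((w⁻¹ : kˣ) : k) ^ 2) ^ n := by
    funext n
    change ((bw w : G3 k) ^ n).1 0 0 = _
    rw [H801.bw_pow, Matrix.diagonal_apply_eq]
    rfl
  rw [h1]
  have h2 : 1 < ‖((w⁻¹ : kˣ) : k) ^ 2‖ := by
    rw [norm_pow, Units.val_inv_eq_inv_val, norm_inv]
    refine one_lt_pow₀ ?_ two_ne_zero
    exact one_lt_inv_iff₀.2 ⟨norm_pos_iff.2 w.ne_zero, hw⟩
  refine tendsto_norm_atTop_iff_cobounded.1 ?_ |>.mono_right (Metric.cobounded_le_cocompact)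
  simp only [norm_pow]
  rw [norm_pow] at h2
  exact tendsto_pow_atTop_atTop_of_one_lt h2

variable [ProperSpace k]

theorem compact_nm (C : ℝ) : IsCompact {g : G3 k | nm g ≤ C} := by
  have h1 : IsCompact (Metric.closedBall (0 : Fin 3 → Fin 3 → k) C) := isCompact_closedBall _ _
  have h2 : Topology.IsClosedEmbedding (fun g : G3 k => (g.1 : Matrix (Fin 3) (Fin 3) k)) :=
    Matrix.SpecialLinearGroup.isClosedEmbedding_val
  have h4 : Topology.IsClosedEmbedding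
      (fun g : G3 k => (fun i j => g.1 i j : Fin 3 → Fin 3 → k)) := h2
  have h3 := h4.isCompact_preimage h1
  have e : {g : G3 k | nm g ≤ C} = (fun g : G3 k => (fun i j => g.1 i j : Fin 3 → Fin 3 → k)) ⁻¹'
      Metric.closedBall (0 : Fin 3 → Fin 3 → k) C := by
    ext g
    change nm g ≤ C ↔ (fun i j => g.1 i j : Fin 3 → Fin 3 → k) ∈
      Metric.closedBall (0 : Fin 3 → Fin 3 → k) C
    rw [mem_closedBall_zero_iff]
    rfl
  rw [e]
  exact h3

theorem disc_sub (Γ : Subgroup (G3 k)) [DiscreteTopology Γ] [LocallyCompactSpace (G3 k)]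
    (C : ℝ) : {γ : Γ | nm (Γ.subtype γ) ≤ C}.Finite :=
  H790.finite_inter Γ (compact_nm C)

end grp

section con

variable {k : Type} [NontriviallyNormedField k] [ProperSpace k] [LocallyCompactSpace (G3 k)]
  [SecondCountableTopology (G3 k)] [MeasurableSpace (G3 k)] [BorelSpace (G3 k)]
  {Γ : Subgroup (G3 k)} [DiscreteTopology Γ] [Countable Γ] [MeasurableSpace (G3 k ⧸ Γ)]
  [BorelSpace (G3 k ⧸ Γ)] {ν : Measure (G3 k ⧸ Γ)} [IsProbabilityMeasure ν]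
  (hν : ∀ g : G3 k, ν.map (fun x => g • x) = ν)
  {Λ : Type} [Group Λ] [Countable Λ] {α : Γ →* (Ell2 Λ →L[ℂ] Ell2 Λ)} (hα : Frame α)

theorem cov_VR : H761.CovFam (VR hα) (H761.ET (H761.TD (H931.dual_frame hα))) :=
  H761.covFam_coarse (H761.coarse_V (H931.dual_frame hα))

theorem cov_lx (A : Set Γ) (q : Γ) :
    H761.ET (H761.TD (H931.dual_frame hα)) A * H432.lx ((1 : Γ), q) =
      H432.lx ((1 : Γ), q) * H761.ET (H761.TD (H931.dual_frame hα)) A :=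
  H761.et_lx (H761.coarse_V (H931.dual_frame hα)) A q

/-- bounded vectors -/
noncomputable def Bd (ν : Measure (G3 k ⧸ Γ)) [IsProbabilityMeasure ν] (hα : Frame α) :
    Set (KK ν Λ) := JE ν hα '' H357.BdL2 ν Γ Γ Unit

/-- left bounded vectors -/
noncomputable def Bf (ν : Measure (G3 k ⧸ Γ)) [IsProbabilityMeasure ν] (hα : Frame α) :
    Set (KK ν Λ) := JE ν hα '' BfL ν (Γ × Γ) Unit

/-- the masses -/
noncomputable def msK (hν : ∀ g : G3 k, ν.map (fun x => g • x) = ν) (hα : Frame α) :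
    G3 k → Set Γ → ℝ :=
  msR (Q := Γ) (ι := Unit) (H85.cdat ν hν) (VR hα)

theorem pi_eq : (fun g : G3 k => pic hν hα g) =
    fun g => uc (JE ν hα) (Ri (H85.cdat ν hν) (VR hα) g) :=
  funext fun g => (uc_pi hν hα g).symm

/-- **`SysF` on the picture**, for any two gap functions. -/
theorem sysK {w : kˣ} {G1 G2 : Γ → ℝ}
    (hgap : ∀ s u : Γ, ∃ C, ∀ x, |G1 (s * x * u) - G1 x| ≤ C ∧ |G2 (s * x * u) - G2 x| ≤ C)
    (nrm : ∀ ε : ℝ, 0 < ε → ∃ r, ∀ u ∈ Subgroup.zpowers (bw w : G3 k),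
      msK hν hα u (BB G1 G2 r) ≤ ε) :
    SysF (mpE ν hα) (fun g => pic hν hα g) (Bd ν hα) (msK hν hα)
      (Subgroup.zpowers (bw w)⁻¹) G1 G2 := by
  rw [pi_eq, Subgroup.zpowers_inv]
  exact sysF_uc (JE ν hα) (sysF_row (Q := Γ) (ι := Unit) (H85.cdat ν hν) (arep_VR hα) hgap nrm)

theorem row_leg : Leg (fst (baseL ν (Γ × Γ) Unit)).mp (Ri (H85.cdat ν hν) (VR hα))
    (fun γ : Γ => lxt ν (γ, (1 : Γ))) (H776.Leg1.WL (H85.cdat ν hν) Γ Γ Unit) :=
  H776.Leg1.leg_row (H85.cdat ν hν) (arep_VR hα) (VR_one hα)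

include hν in
theorem mcovK (γ : Γ) (F : Γ → ℝ) (hF : ∀ g, |F g| ≤ 1) :
    lam₁ ν α γ * mpE ν hα F * lam₁ ν α γ⁻¹ = mpE ν hα (fun g => F (γ⁻¹ * g)) := by
  rw [← uc_lam₁ hα, ← uc_lam₁ hα, mpE, ← uc_mul, ← uc_mul]
  exact congrArg (uc (JE ν hα)) ((row_leg hν hα).cov γ F hF)

include hν in
theorem mWK : ∀ x ∈ XX ν Λ ∪ Set.range (lam₂ ν α), ∀ F : Γ → ℝ, (∀ g, |F g| ≤ 1) →
    x * mpE ν hα F = mpE ν hα F * x := by
  rintro x (⟨S, hS, rfl⟩ | ⟨s, rfl⟩) F hF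
  · rw [← uc_ind hα hS, mpE, ← uc_mul, ← uc_mul]
    exact congrArg (uc (JE ν hα)) ((row_leg hν hα).Wm _ (Or.inl ⟨S, hS, rfl⟩) F hF)
  · rw [← uc_lam₂ hα, mpE, ← uc_mul, ← uc_mul]
    exact congrArg (uc (JE ν hα)) ((row_leg hν hα).Wm _ (Or.inr ⟨s, rfl⟩) F hF)

/-- **The source data of the first leg.** -/
theorem srcK {w : kˣ} (hw : ‖(w : k)‖ < 1)
    (hΛ : ∀ g : Λ, g ≠ 1 → Set.Infinite {y : Λ | ∃ h, y = h * g * h⁻¹}) :
    Src w (pic hν hα) (lam₁ ν α) (XX ν Λ ∪ Set.range (lam₂ ν α)) (Om ν Λ) (mpE ν hα)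
      (Bd ν hα) (Bf ν hα) where
  pic := by
    haveI : NoncompactSpace (G3 k) :=
      H34.PicC.sl_noncompact (ι := Fin 3) (k := k) (show (0 : Fin 3) ≠ 1 by decide)
    exact (H34.PicC.pic2 hν hα hΛ).leg₁
  hw := hw
  mcov := mcovK hν hα
  mW := mWK hν hα
  slow := by
    rw [pi_eq]
    exact slow_uc (JE ν hα) (slow_row (Q := Γ) (ι := Unit) (H85.cdat ν hν)
      (H43.ccont_cdat ν hν) (arep_VR hα) (VR_one hα))
  loc := by
    rw [pi_eq]
    exact loc2_uc (JE ν hα) (loc_row (Q := Γ) (ι := Unit) (H85.cdat ν hν) (arep_VR hα))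
  esc := by
    rw [pi_eq, Subgroup.zpowers_inv]
    exact esc_uc (JE ν hα) (H541.esc_pow_inv Γ ν hν (arep_VR hα) (cov_VR hα)
      (fun A q => cov_lx hα A q) (pow_bw hw) (H357.BdL2 ν Γ Γ Unit))
  esc' := by
    rw [pi_eq, Subgroup.zpowers_inv]
    exact esc_uc (JE ν hα) (H541.esc_pow Γ ν hν (arep_VR hα) (cov_VR hα)
      (fun A q => cov_lx hα A q) (pow_bw hw) (H357.BdL2 ν Γ Γ Unit))
  sym := by
    rw [pi_eq, ← JE_Om hα (default : Unit)]
    exact sym_uc (JE ν hα) (sym_row (Q := Γ) (ι := Unit) (H85.cdat ν hν) (arep_VR hα))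
  fin := fun ξ ε hε => by
    obtain ⟨F, hF⟩ := (H103.ms₁ (ν := ν) hα).fin ξ ε hε
    exact ⟨F, by rw [st_mpE]; exact hF⟩
  om := ⟨H790.ept ν (), H43.bfl_ept (), JE_Om hα ()⟩

/-- no invariant states -/
theorem covol_sub (hν : ∀ g : G3 k, ν.map (fun x => g • x) = ν) :
    H514.NI.Covol Γ.subtype.range := by
  rw [Subgroup.range_subtype]
  have e : (inferInstance : MeasurableSpace (G3 k ⧸ Γ)) = borel (G3 k ⧸ Γ) :=
    BorelSpace.measurable_eq
  have h1 : ∀ g : G3 k, Measurable fun x : G3 k ⧸ Γ => g • x := fun g =>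
    (continuous_const_smul g).measurable
  have h2 : ∃ m : Measure (G3 k ⧸ Γ), m ≠ 0 ∧ m Set.univ < ⊤ ∧
      ∀ g : G3 k, ∀ s : Set (G3 k ⧸ Γ), MeasurableSet s → m ((fun x => g • x) ⁻¹' s) = m s := by
    refine ⟨ν, IsProbabilityMeasure.ne_zero ν, measure_lt_top _ _, fun g s hs => ?_⟩
    rw [← Measure.map_apply (h1 g) hs, hν]
  unfold H514.NI.Covol
  subst e
  exact h2

theorem nis_sub (hν : ∀ g : G3 k, ν.map (fun x => g • x) = ν) :
    NIS fun (γ : Γ) (x : PP k) => Γ.subtype γ • x :=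
  H411.nis_points Γ.subtype (covol_sub hν)

theorem nis_sub' (hν : ∀ g : G3 k, ν.map (fun x => g • x) = ν) :
    NIS fun (γ : Γ) (x : PP k) => ((tau k).comp Γ.subtype) γ • x :=
  H411.nis_lines Γ.subtype (covol_sub hν)

theorem tau_inj : Function.Injective (tau k) := fun a b h => by
  rw [← H411.tau_tau k a, ← H411.tau_tau k b, h]

/-- **Leg 1 over any local field**, general gaps. -/
theorem half_gen [MeasurableSpace k] {μ : Measure k} {w : kˣ} (hw : ‖(w : k)‖ < 1)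
    (hΛ : ∀ g : Λ, g ≠ 1 → Set.Infinite {y : Λ | ∃ h, y = h * g * h⁻¹})
    {G1 G2 : Γ → ℝ} {bp bp' : Γ → PP k}
    (hG : @GeoF Γ (PP k) _ _ (MulAction.compHom (PP k) Γ.subtype) G1 G2 bp)
    (hcut : DomCut Γ.subtype G1 G2 bp)
    (hG' : @GeoF Γ (PP k) _ _ (MulAction.compHom (PP k) ((tau k).comp Γ.subtype)) G2 G1 bp')
    (hcut' : DomCut ((tau k).comp Γ.subtype) G2 G1 bp')
    (hNW : ∀ r : ℝ, ∃ R : ℝ, ∀ γ, G2 γ ≤ r → NW R (Γ.subtype γ))
    (hNW' : ∀ r : ℝ, ∃ R : ℝ, ∀ γ, G1 γ ≤ r → NW R (((tau k).comp Γ.subtype) γ))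
    {C : ℝ} (hC : ∀ g, |G1 g⁻¹ - G2 g| ≤ C ∧ |G2 g⁻¹ - G1 g| ≤ C)
    (hd : ∀ C : ℝ, {γ : Γ | nm (((tau k).comp Γ.subtype) γ) ≤ C}.Finite)
    (nrm : ∀ ε : ℝ, 0 < ε → ∃ r, ∀ u ∈ Subgroup.zpowers (bw w : G3 k),
      msK hν hα u (BB G1 G2 r) ≤ ε)
    (size : ∀ q : Γ →* G3 k, q = Γ.subtype ∨ q = (tau k).comp Γ.subtype →
      SIZE w (pic hν hα) (Om ν Λ) (H103.mS₁ ν hα) q)
    (orb : ORB μ w (pic hν hα) (lam₁ ν α) (XX ν Λ ∪ Set.range (lam₂ ν α)) (Om ν Λ)) :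
    ∃ (q : Γ →* G3 k) (E F : PP k → (CP k →⋆ₐ[ℂ] (KK ν Λ →L[ℂ] KK ν Λ))),
      (q = Γ.subtype ∨ q = (tau k).comp Γ.subtype) ∧
      LegS μ w (pic hν hα) (lam₁ ν α) (XX ν Λ ∪ Set.range (lam₂ ν α)) (Om ν Λ)
        (H103.mS₁ ν hα) q E F := by
  have S := srcK hν hα hw hΛ
  have hs := sysK hν hα (w := w) (G1 := G1) (G2 := G2) hG.gap nrm
  obtain ⟨q, hq, hnws, E, F, hE, hF⟩ := dis S hs hG hcut (nis_sub hν) hG' hcut' (nis_sub' hν)
    hNW hNW' hC
  have e : st (mpE ν hα) = H103.mS₁ ν hα := funext fun S => st_mpE hα S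
  rw [e] at hnws hE hF
  refine ⟨q, E, F, hq, ?_⟩
  exact
    { hw := hw
      pic := S.pic
      ms := H103.ms₁ hα
      inj := by
        rcases hq with rfl | rfl
        · exact Subtype.val_injective
        · exact fun a b h => Subtype.val_injective (tau_inj h)
      disc := by
        rcases hq with rfl | rfl
        · exact disc_sub Γ
        · exact hd
      uc := H103.uc₁ hν hα
      orb := orb
      size := size q hq
      nws := hnws
      e := hE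
      f := hF }

/-- **Leg 1 over any local field**, with helper534's geometry: the remaining inputs are the mass
`nrm`, `SIZE` and `ORB`. -/
theorem half_GK [MeasurableSpace k] {μ : Measure k} {w : kˣ} (hw : ‖(w : k)‖ < 1)
    (hΛ : ∀ g : Λ, g ≠ 1 → Set.Infinite {y : Λ | ∃ h, y = h * g * h⁻¹})
    (nrm : ∀ ε : ℝ, 0 < ε → ∃ r, ∀ u ∈ Subgroup.zpowers (bw w : G3 k),
      msK hν hα u (BB (fun γ => ga (Γ.subtype γ)) (fun γ => gb (Γ.subtype γ)) r) ≤ ε)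
    (size : ∀ q : Γ →* G3 k, q = Γ.subtype ∨ q = (tau k).comp Γ.subtype →
      SIZE w (pic hν hα) (Om ν Λ) (H103.mS₁ ν hα) q)
    (orb : ORB μ w (pic hν hα) (lam₁ ν α) (XX ν Λ ∪ Set.range (lam₂ ν α)) (Om ν Λ)) :
    ∃ (q : Γ →* G3 k) (E F : PP k → (CP k →⋆ₐ[ℂ] (KK ν Λ →L[ℂ] KK ν Λ))),
      (q = Γ.subtype ∨ q = (tau k).comp Γ.subtype) ∧
      LegS μ w (pic hν hα) (lam₁ ν α) (XX ν Λ ∪ Set.range (lam₂ ν α)) (Om ν Λ)
        (H103.mS₁ ν hα) q E F := by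
  have hdisc : ∀ C : ℝ, {γ : Γ | nm (Γ.subtype γ) ≤ C}.Finite := disc_sub Γ
  have hdisc' := H534.GK.disc_tau Γ.subtype hdisc
  have e1 : (fun γ : Γ => ga (((tau k).comp Γ.subtype) γ)) = fun γ => gb (Γ.subtype γ) :=
    funext fun γ => H534.GK.ga_tau _
  have e2 : (fun γ : Γ => gb (((tau k).comp Γ.subtype) γ)) = fun γ => ga (Γ.subtype γ) :=
    funext fun γ => H534.GK.gb_tau _
  have hG' := H534.GK.geoF ((tau k).comp Γ.subtype) hdisc'
  have hc' : DomCut ((tau k).comp Γ.subtype) (fun γ => ga (((tau k).comp Γ.subtype) γ))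
      (fun γ => gb (((tau k).comp Γ.subtype) γ)) (fun γ => bpk (((tau k).comp Γ.subtype) γ)) :=
    fun r => ⟨Real.exp r, H534.GK.cone_sub ((tau k).comp Γ.subtype) r⟩
  rw [e1, e2] at hG' hc'
  refine half_gen hν hα hw hΛ (H534.GK.geoF Γ.subtype hdisc)
    (fun r => ⟨Real.exp r, H534.GK.cone_sub Γ.subtype r⟩) hG' hc'
    (fun r => ⟨Real.exp r, fun γ h => H534.GK.nw_of_gb h⟩)
    (fun r => ⟨Real.exp r, fun γ h => H534.GK.nw_of_gb ?_⟩) (C := 0) (fun g => ?_) hdisc' nrm size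
    orb
  · have e3 : gb (((tau k).comp Γ.subtype) γ) = ga (Γ.subtype γ) := H534.GK.gb_tau _
    rw [e3]
    exact h
  · have e3 : Γ.subtype g⁻¹ = (Γ.subtype g)⁻¹ := map_inv _ _
    rw [e3, H534.GK.ga_inv, H534.GK.gb_inv, sub_self, sub_self, abs_zero]
    exact ⟨le_rfl, le_rfl⟩

end con

end Vale.Agent.P092.H805.HalfK
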