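import Vale.Agent.P092.H805.Graph
import Vale.Agent.P092.H156.Int
import Vale.Agent.P092.H715.QDefs

/-!
P092 (helper805), block [Q-RES] of project Q: from ergodicity of bounded operators to fields.
`f1_of_erg`: if the only operators in the commutant of `ρ` which are continuous (in the vector `ω`)
for the conjugation by `V` are the scalars, then `∫ ⟨a x ζ, b x η⟩ = ⟨a, b⟩ ⟨ζ, η⟩` for all smooth
fields.  No Powers-Stormer inequality: the resolvents `(1 + T* T)⁻¹` are used.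
-/

set_option linter.all false

open scoped InnerProductSpace ENNReal
open Filter Topology ContinuousLinearMap MeasureTheory

namespace Vale.Agent.P092.H805

open Vale.Agent.P092.H160
open Vale.Agent.P092.H156.Sm

section main

variable {X Γ G H K : Type} [Group X] [Group Γ] [Group G] [Group H] [Countable X]
  [TopologicalSpace G] [TopologicalSpace H] [IsTopologicalGroup G] [IsTopologicalGroup H]
  [MeasurableSpace G] [BorelSpace G] [SecondCountableTopology G]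
  [NormedAddCommGroup K] [InnerProductSpace ℂ K] [CompleteSpace K]
  {ρ : X →* (K →L[ℂ] K)} {V : Γ →* (K →L[ℂ] K)} {ω : K} {ι : X →* G} {κ : Γ →* H}
  {μ : Measure G} {a b c : G → K →L[ℂ] K}

theorem swap_rho (hb : Fd ι ρ b) (g : X) (x : G) : b x * ρ g = ρ g * b (ι g⁻¹ * x) := by
  rw [hb.equiv, inv_inv]
  calc b x * ρ g = 1 * b x * ρ g := by rw [one_mul]
    _ = (ρ g * ρ g⁻¹) * b x * ρ g := by rw [← map_mul, mul_inv_cancel, map_one]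
    _ = ρ g * (ρ g⁻¹ * b x * ρ g) := by simp only [mul_assoc]

theorem memLp_shift [μ.IsMulLeftInvariant] (h : RegRep ρ ω) (hb : Fd ι ρ b) {ξ : K}
    (hξ : MemLp (fun x => b x ξ) 2 μ) (g : X) : MemLp (fun x => b x (ρ g ξ)) 2 μ := by
  have h1 : MemLp (fun x => b (ι g⁻¹ * x) ξ) 2 μ :=
    hξ.comp_measurePreserving (measurePreserving_mul_left μ (ι g⁻¹))
  have h2 := (ρ g).comp_memLp' h1
  refine (memLp_congr_ae (Eventually.of_forall fun x => ?_)).2 h2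
  change b x (ρ g ξ) = ρ g (b (ι g⁻¹ * x) ξ)
  rw [← mul_ap (b x), swap_rho hb, mul_ap]

/-- The resolvent commutes with `ρ`. -/
theorem res_cmm [μ.IsMulLeftInvariant] (h : RegRep ρ ω) (hb : Fd ι ρ b) :
    Cmm ρ (Res μ b) := by
  intro g
  ext1 ζ
  rw [mul_ap, mul_ap]
  refine res_unique (memLp_shift h hb (res_memLp ζ) g) fun η hη => ?_
  have hη' := memLp_shift h hb hη g⁻¹
  rw [h.inner_left, res_spec ζ _ hη', h.inner_left]
  congr 1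
  have e1 : ∀ x, ⟪b x (Res μ b ζ), b x (ρ g⁻¹ η)⟫_ℂ =
      (fun y => ⟪b y (ρ g (Res μ b ζ)), b y η⟫_ℂ) (ι g * x) := by
    intro x
    change _ = ⟪b (ι g * x) (ρ g (Res μ b ζ)), b (ι g * x) η⟫_ℂ
    have t1 : b x (ρ g⁻¹ η) = ρ g⁻¹ (b (ι g * x) η) := by
      rw [← mul_ap (b x) (ρ g⁻¹), swap_rho hb, inv_inv, mul_ap]
    have t2 : b (ι g * x) (ρ g (Res μ b ζ)) = ρ g (b x (Res μ b ζ)) := by
      rw [hb.equiv, mul_ap, mul_ap, h.inv_apply]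
    rw [t1, t2, h.inner_right, inv_inv]
  rw [integral_congr_ae (Eventually.of_forall e1)]
  exact integral_mul_left_eq_self (μ := μ) (fun y => ⟪b y (ρ g (Res μ b ζ)), b y η⟫_ℂ) (ι g)

/-- The resolvent and the conjugation by `V`. -/
theorem res_conj (h : Frm ρ V ω) (v : Γ) :
    V v * Res μ b * V v⁻¹ = Res μ (fun x => V v * b x * V v⁻¹) := by
  symm
  ext1 ζ
  have e0 : (V v * Res μ b * V v⁻¹) ζ = V v (Res μ b (V v⁻¹ ζ)) := rfl
  rw [e0]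
  have h0 : ∀ (x : G) (ξ : K), (V v * b x * V v⁻¹) (V v ξ) = V v (b x ξ) := by
    intro x ξ
    rw [mul_ap, mul_ap, h.inv_apply]
  refine res_unique ?_ fun η hη => ?_
  · have h1 := (V v).comp_memLp' (res_memLp (μ := μ) (b := b) (V v⁻¹ ζ))
    refine (memLp_congr_ae (Eventually.of_forall fun x => ?_)).2 h1
    exact h0 _ _
  · have hη' : MemLp (fun x => b x (V v⁻¹ η)) 2 μ := by
      have h1 := (V v⁻¹).comp_memLp' hη
      refine (memLp_congr_ae (Eventually.of_forall fun x => ?_)).2 h1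
      change b x (V v⁻¹ η) = V v⁻¹ ((V v * b x * V v⁻¹) η)
      rw [mul_ap, mul_ap, h.inv_apply]
    have h1 := res_spec (μ := μ) (b := b) (V v⁻¹ ζ) _ hη'
    have e1 : ⟪V v⁻¹ ζ, V v⁻¹ η⟫_ℂ = ⟪ζ, η⟫_ℂ := by
      rw [h.inner_left, inv_inv, h.apply_inv]
    have e2 : ⟪V v (Res μ b (V v⁻¹ ζ)), η⟫_ℂ = ⟪Res μ b (V v⁻¹ ζ), V v⁻¹ η⟫_ℂ :=
      h.inner_left _ _ _
    rw [e1] at h1
    rw [h1, e2]
    congr 1
    refine integral_congr_ae (Eventually.of_forall fun x => ?_)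
    simp only
    rw [h0, mul_ap, mul_ap, h.inner_left, h.inv_apply]

theorem norm_toLp_rm [μ.IsMulLeftInvariant] (h : RegRep ρ ω) (hb : Fd ι ρ b) (hb2 : L2 ω μ b)
    {m : K →L[ℂ] K} (hm : Cmm ρ m) :
    ‖(L2.rm h hb hb2 hm).toLp _‖ ≤ ‖m‖ * ‖MemLp.toLp _ hb2‖ := by
  refine abs_le_of_sq_le_sq' ?_ (by positivity) |>.2
  rw [mul_pow, norm_toLp_sq, norm_toLp_sq]
  have h1 := nsq_mul_right (μ := μ) h hb (Fd.const (ι := ι) h hm) (C := ‖m‖) (fun _ => le_rfl)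
  have h2 := ENNReal.toReal_mono (ENNReal.mul_ne_top (by simp) (nsq_lt_top hb2).ne) h1
  rw [ENNReal.toReal_mul, ENNReal.toReal_pow, ENNReal.toReal_ofReal (norm_nonneg _)] at h2
  exact h2

/-- The main estimate: `‖(R_b - R_c) ω‖² ≤ 4 |b - c|`. -/
theorem res_diff [μ.IsMulLeftInvariant] (h : RegRep ρ ω) (hb : Fd ι ρ b) (hc : Fd ι ρ c)
    (hb2 : L2 ω μ b) (hc2 : L2 ω μ c) :
    ‖(Res μ c - Res μ b) ω‖ ^ 2 ≤ 4 * ‖MemLp.toLp _ (L2.sub hc2 hb2)‖ := by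
  set Rb := Res μ b with hRb
  set Rc := Res μ c with hRc
  have cb : Cmm ρ Rb := res_cmm h hb
  have cc : Cmm ρ Rc := res_cmm h hc
  set y := Rb - Rc with hy
  have cy : Cmm ρ y := cb.sub cc
  set N : ℝ := ‖MemLp.toLp _ (L2.sub hc2 hb2)‖ with hN
  have hN0 : 0 ≤ N := norm_nonneg _
  have nb : ‖Rb‖ ≤ 1 := opNorm_le_bound _ zero_le_one fun ζ => by
    rw [one_mul]; exact res_norm_le ζ
  have nc : ‖Rc‖ ≤ 1 := opNorm_le_bound _ zero_le_one fun ζ => by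
    rw [one_mul]; exact res_norm_le ζ
  have ny : ‖y‖ ≤ 2 := (norm_sub_le _ _).trans (by linarith)
  have hω : ‖ω‖ = 1 := h.norm_one
  have nyω : ‖y ω‖ ≤ 2 := (y.le_opNorm ω).trans (by rw [hω, mul_one]; exact ny)
  -- the operators `m1 = R_b y`, `m2 = R_c`
  set m1 := Rb * y with hm1
  have c1 : Cmm ρ m1 := cb.mul cy
  have n1 : ‖m1‖ ≤ 2 := by
    calc ‖m1‖ ≤ ‖Rb‖ * ‖y‖ := norm_mul_le _ _
      _ ≤ 1 * 2 := by gcongr
      _ = 2 := by norm_num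
  have hsub := hc.sub hb
  have hsub2 : L2 ω μ (fun x => c x - b x) := L2.sub hc2 hb2
  -- the vectors
  have A1 : MemLp (fun x => c x (m1 ω)) 2 μ := L2.rm h hc hc2 c1
  have A2 : MemLp (fun x => c x (Rc ω)) 2 μ := L2.rm h hc hc2 cc
  have B1 : MemLp (fun x => b x (m1 ω)) 2 μ := L2.rm h hb hb2 c1
  have B2 : MemLp (fun x => b x (Rc ω)) 2 μ := L2.rm h hb hb2 cc
  have s1 := res_spec (μ := μ) (b := c) ω (m1 ω) A1
  have s2 := res_spec (μ := μ) (b := b) (y ω) (Rc ω) B2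
  rw [integral_inner_toLp (res_memLp ω) A1] at s1
  rw [integral_inner_toLp (res_memLp (y ω)) B2] at s2
  have e0 : Res μ b (y ω) = m1 ω := rfl
  have k1 : ‖A2.toLp _‖ ≤ 1 := by
    have := res_norm_toLp_le (μ := μ) (b := c) ω
    rwa [hω] at this
  have k2 : ‖B1.toLp _‖ ≤ ‖y ω‖ := res_norm_toLp_le (μ := μ) (b := b) (y ω)
  have k3 : ‖A1.toLp _ - B1.toLp _‖ ≤ 2 * N := by
    have h1 := norm_toLp_rm h hsub hsub2 c1
    have h2 : A1.toLp _ - B1.toLp _ = (L2.rm h hsub hsub2 c1).toLp _ := by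
      rw [← MemLp.toLp_sub A1 B1]
      rfl
    rw [h2]
    exact h1.trans (by gcongr)
  have k4 : ‖A2.toLp _ - B2.toLp _‖ ≤ N := by
    have h1 := norm_toLp_rm h hsub hsub2 cc
    have h2 : A2.toLp _ - B2.toLp _ = (L2.rm h hsub hsub2 cc).toLp _ := by
      rw [← MemLp.toLp_sub A2 B2]
      rfl
    rw [h2]
    refine h1.trans ?_
    calc ‖Rc‖ * N ≤ 1 * N := by gcongr
      _ = N := one_mul _
  have key : ⟪y ω, y ω⟫_ℂ = ⟪A1.toLp _ - B1.toLp _, A2.toLp _⟫_ℂ +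
      ⟪B1.toLp _, A2.toLp _ - B2.toLp _⟫_ℂ := by
    have t1 : ⟪y ω, y ω⟫_ℂ = ⟪m1 ω, ω⟫_ℂ - ⟪y ω, Rc ω⟫_ℂ := by
      have t2 : ⟪m1 ω, ω⟫_ℂ = ⟪y ω, Rb ω⟫_ℂ := res_symm (y ω) ω
      rw [t2, ← inner_sub_right]
      rfl
    have t3 : ⟪m1 ω, ω⟫_ℂ = ⟪m1 ω, Rc ω⟫_ℂ + ⟪A1.toLp _, A2.toLp _⟫_ℂ := by
      rw [← inner_conj_symm, s1, map_add, inner_conj_symm, inner_conj_symm]
    have t4 : ⟪y ω, Rc ω⟫_ℂ = ⟪m1 ω, Rc ω⟫_ℂ + ⟪B1.toLp _, B2.toLp _⟫_ℂ := s2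
    rw [t1, t3, t4, inner_sub_left, inner_sub_right]
    ring
  have k5 : ‖y ω‖ ^ 2 ≤ 4 * N := by
    have h1 : ‖⟪y ω, y ω⟫_ℂ‖ = ‖y ω‖ ^ 2 := by
      rw [inner_self_eq_norm_sq_to_K]
      simp
    rw [← h1, key]
    calc ‖⟪A1.toLp _ - B1.toLp _, A2.toLp _⟫_ℂ + ⟪B1.toLp _, A2.toLp _ - B2.toLp _⟫_ℂ‖
        ≤ ‖⟪A1.toLp _ - B1.toLp _, A2.toLp _⟫_ℂ‖ +
          ‖⟪B1.toLp _, A2.toLp _ - B2.toLp _⟫_ℂ‖ := norm_add_le _ _
      _ ≤ ‖A1.toLp _ - B1.toLp _‖ * ‖A2.toLp _‖ + ‖B1.toLp _‖ * ‖A2.toLp _ - B2.toLp _‖ :=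
          add_le_add (norm_inner_le_norm _ _) (norm_inner_le_norm _ _)
      _ ≤ (2 * N) * 1 + 2 * N := by
          gcongr
          exact k2.trans nyω
      _ = 4 * N := by ring
  have e1 : (Rc - Rb) ω = -(y ω) := by
    rw [hy, sub_apply, sub_apply]
    abel
  rw [e1, norm_neg]
  exact k5

/-- The resolvent of a smooth field is continuous for the conjugation by `V`. -/
theorem res_cont [μ.IsMulLeftInvariant] (h : Frm ρ V ω) (hb : Smo ι κ ρ V ω μ b) (ε : ℝ)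
    (hε : 0 < ε) : ∃ W ∈ 𝓝 (1 : H), ∀ v, κ v ∈ W →
      ‖(V v * Res μ b * V v⁻¹ - Res μ b) ω‖ ≤ ε := by
  obtain ⟨W, hW, h1⟩ := conj_cont h hb ((ε ^ 2 / 4) ^ 2) (by positivity)
  refine ⟨W, hW, fun v hv => ?_⟩
  have h2 := h1 v hv
  have hb' := hb.toFd.conj h v
  have hb2' : L2 ω μ (fun x => V v * b x * V v⁻¹) := L2.conj h hb.toFd hb.l2 v
  have h3 := res_diff h.reg hb.toFd hb' hb.l2 hb2'
  rw [← norm_toLp_sq (L2.sub hb2' hb.l2)] at h2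
  have h4 : ‖MemLp.toLp _ (L2.sub hb2' hb.l2)‖ ≤ ε ^ 2 / 4 :=
    (abs_le_of_sq_le_sq' h2 (by positivity)).2
  rw [res_conj h]
  refine (abs_le_of_sq_le_sq' ?_ hε.le).2
  calc ‖(Res μ (fun x => V v * b x * V v⁻¹) - Res μ b) ω‖ ^ 2
      ≤ 4 * ‖MemLp.toLp _ (L2.sub hb2' hb.l2)‖ := h3
    _ ≤ 4 * (ε ^ 2 / 4) := by gcongr
    _ = ε ^ 2 := by ring

/-- Ergodicity: the only operators commuting with `ρ` and continuous for `V` are the scalars. -/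
def Erg (κ : Γ →* H) (ρ : X →* (K →L[ℂ] K)) (V : Γ →* (K →L[ℂ] K)) (ω : K) : Prop :=
  ∀ T : K →L[ℂ] K, Cmm ρ T → (∀ ε : ℝ, 0 < ε → ∃ W ∈ 𝓝 (1 : H), ∀ v, κ v ∈ W →
    ‖(V v * T * V v⁻¹ - T) ω‖ ≤ ε) → ∃ c : ℂ, T = c • 1

/-- [T4] for one field. -/
theorem t4_self [μ.IsMulLeftInvariant] (h : Frm ρ V ω) (erg : Erg κ ρ V ω)
    (hb : Smo ι κ ρ V ω μ b) (ζ η : K) : MemLp (fun x => b x ζ) 2 μ ∧
    ∫ x, ⟪b x ζ, b x η⟫_ℂ ∂μ = ip ω μ b b * ⟪ζ, η⟫_ℂ := by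
  obtain ⟨r, hr⟩ := erg (Res μ b) (res_cmm h.reg hb.toFd) (res_cont h hb)
  have hω : ⟪ω, ω⟫_ℂ = 1 := by
    rw [inner_self_eq_norm_sq_to_K, h.reg.norm_one]
    simp
  have hR : ∀ ξ : K, Res μ b ξ = r • ξ := fun ξ => by rw [hr]; rfl
  have hr0 : r ≠ 0 := by
    intro h0
    have h1 := res_spec (μ := μ) (b := b) ω ω hb.l2
    rw [hR, h0, zero_smul, hω, inner_zero_left, zero_add] at h1
    simp at h1
  have hm : ∀ ξ : K, MemLp (fun x => b x ξ) 2 μ := by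
    intro ξ
    have h1 := (res_memLp (μ := μ) (b := b) ξ).const_smul r⁻¹
    refine (memLp_congr_ae (Eventually.of_forall fun x => ?_)).2 h1
    change b x ξ = r⁻¹ • b x (Res μ b ξ)
    rw [hR, map_smul, smul_smul, inv_mul_cancel₀ hr0, one_smul]
  have hcr : (starRingEnd ℂ) r ≠ 0 := by simpa using hr0
  have hint : ∀ ξ η : K, ∫ x, ⟪b x ξ, b x η⟫_ℂ ∂μ = (((starRingEnd ℂ) r)⁻¹ - 1) * ⟪ξ, η⟫_ℂ := by
    intro ξ η
    have h1 := res_spec (μ := μ) (b := b) ξ η (hm η)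
    have e1 : ∫ x, ⟪b x (Res μ b ξ), b x η⟫_ℂ ∂μ =
        (starRingEnd ℂ) r * ∫ x, ⟪b x ξ, b x η⟫_ℂ ∂μ := by
      rw [← integral_const_mul]
      refine integral_congr_ae (Eventually.of_forall fun x => ?_)
      simp only
      rw [hR, map_smul, inner_smul_left]
    rw [e1, hR, inner_smul_left] at h1
    field_simp
    linear_combination -h1
  refine ⟨hm ζ, ?_⟩
  have h2 : ip ω μ b b = ((starRingEnd ℂ) r)⁻¹ - 1 := by
    have := hint ω ω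
    rw [hω, mul_one] at this
    exact this
  rw [h2]
  exact hint ζ η

/-- **[Q-RES]** ergodicity implies [F1] = [T4]. -/
theorem f1_of_erg [μ.IsMulLeftInvariant] (h : Frm ρ V ω) (erg : Erg κ ρ V ω) :
    H715.Q.F1 ι κ ρ V ω μ := by
  intro a b ha hb ζ η
  refine ⟨(t4_self h erg ha ζ ζ).1, ?_⟩
  have mem : ∀ {c : G → K →L[ℂ] K}, Smo ι κ ρ V ω μ c → ∀ ξ : K, MemLp (fun x => c x ξ) 2 μ :=
    fun hc ξ => (t4_self h erg hc ξ ξ).1
  have int : ∀ {c d : G → K →L[ℂ] K}, Smo ι κ ρ V ω μ c → Smo ι κ ρ V ω μ d → ∀ ξ χ : K,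
      Integrable (fun x => ⟪c x ξ, d x χ⟫_ℂ) μ :=
    fun hc hd ξ χ => integrable_inner_of_memLp (mem hc ξ) (mem hd χ)
  have sum : ∀ {c : G → K →L[ℂ] K}, Smo ι κ ρ V ω μ c →
      (∫ x, ⟪a x ζ, c x η⟫_ℂ ∂μ) + (∫ x, ⟪c x ζ, a x η⟫_ℂ ∂μ) =
        (ip ω μ a c + ip ω μ c a) * ⟪ζ, η⟫_ℂ := by
    intro c hc
    have s := (t4_self h erg (ha.add hc) ζ η).2
    have sa := (t4_self h erg ha ζ η).2
    have sc := (t4_self h erg hc ζ η).2
    have e1 : ∫ x, ⟪(a x + c x) ζ, (a x + c x) η⟫_ℂ ∂μ =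
        ((∫ x, ⟪a x ζ, a x η⟫_ℂ ∂μ) + ∫ x, ⟪a x ζ, c x η⟫_ℂ ∂μ) +
        ((∫ x, ⟪c x ζ, a x η⟫_ℂ ∂μ) + ∫ x, ⟪c x ζ, c x η⟫_ℂ ∂μ) := by
      have i12 : Integrable (fun x => ⟪a x ζ, a x η⟫_ℂ + ⟪a x ζ, c x η⟫_ℂ) μ :=
        (int ha ha ζ η).add (int ha hc ζ η)
      have i34 : Integrable (fun x => ⟪c x ζ, a x η⟫_ℂ + ⟪c x ζ, c x η⟫_ℂ) μ :=
        (int hc ha ζ η).add (int hc hc ζ η)
      rw [← integral_add (int ha ha ζ η) (int ha hc ζ η),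
        ← integral_add (int hc ha ζ η) (int hc hc ζ η), ← integral_add i12 i34]
      refine integral_congr_ae (Eventually.of_forall fun x => ?_)
      simp only [add_apply, inner_add_left, inner_add_right, Pi.add_apply]
      ring
    have e2 : ip ω μ (fun x => a x + c x) (fun x => a x + c x) =
        (ip ω μ a a + ip ω μ a c) + (ip ω μ c a + ip ω μ c c) := by
      rw [ip_add_left ha.l2 hc.l2 (L2.add ha.l2 hc.l2), ip_add_right ha.l2 ha.l2 hc.l2,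
        ip_add_right hc.l2 ha.l2 hc.l2]
    rw [e1, e2, sa, sc] at s
    linear_combination s
  have s1 := sum hb
  have s2 := sum (hb.smul Complex.I)
  have e1 : ∫ x, ⟪a x ζ, (Complex.I • b x) η⟫_ℂ ∂μ = Complex.I * ∫ x, ⟪a x ζ, b x η⟫_ℂ ∂μ := by
    rw [← integral_const_mul]
    refine integral_congr_ae (Eventually.of_forall fun x => ?_)
    simp only [smul_apply, inner_smul_right]
  have e2 : ∫ x, ⟪(Complex.I • b x) ζ, a x η⟫_ℂ ∂μ =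
      -Complex.I * ∫ x, ⟪b x ζ, a x η⟫_ℂ ∂μ := by
    rw [← integral_const_mul]
    refine integral_congr_ae (Eventually.of_forall fun x => ?_)
    simp only [smul_apply, inner_smul_left, Complex.conj_I]
  rw [e1, e2, ip_smul_right, ip_smul_left, Complex.conj_I] at s2
  have hI : Complex.I * Complex.I = -1 := Complex.I_mul_I
  have s3 : 2 * ∫ x, ⟪a x ζ, b x η⟫_ℂ ∂μ = 2 * (ip ω μ a b * ⟪ζ, η⟫_ℂ) := by
    linear_combination s1 - Complex.I * s2 + ((∫ x, ⟪a x ζ, b x η⟫_ℂ ∂μ) -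
      (∫ x, ⟪b x ζ, a x η⟫_ℂ ∂μ) - (ip ω μ a b - ip ω μ b a) * ⟪ζ, η⟫_ℂ) * hI
  exact mul_left_cancel₀ two_ne_zero s3

end main

end Vale.Agent.P092.H805
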