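import Vale.Agent.P092.H142.Eng
import Vale.Agent.P092.H43.LocUse
import Vale.Agent.P092.H76.DichoD
import Vale.Agent.P092.H76.TransD
import Vale.Agent.P092.H411.AgrSD
import Vale.Agent.P092.H801.Gen
import Vale.Agent.P092.H107.Nws

/-!
P092 (helper805), Team D over any local field, [D0-INST] / [U7]: abstract form of the boundary
calculi of one leg. From the source data `Src` (picture, multiplication operators, slow variation,
locality, escape, symmetry) and the geometry of a target `q₀` and of its dual: the type dichotomy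
and the two families `EFam` (points and lines).
-/

set_option linter.all false

open scoped InnerProductSpace ENNReal LinearAlgebra.Projectivization Pointwise
open Filter Topology ContinuousLinearMap MeasureTheory TopologicalSpace

namespace Vale.Agent.P092.H805.Dis

open Vale.Agent.P092.SD Vale.Agent.P092.H142
open Vale.Agent.P092.H859.CL hiding cfc
open Vale.Agent.P092.RC (Pic Moore Cm)
open Vale.Agent.P092.H43 (Loc2 lu1 lu2 loc_at)
open Vale.Agent.P092.H76.Pur (NIS)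
open Vale.Agent.P092.H76.Dicho (dicho_pic leg_of_pic)
open Vale.Agent.P092.H411 (agr_points agr_lines tau_tau tau_cont)

/-! ### The wall element and the duality -/

section tau

variable {k : Type} [Field k]

theorem bw_mul_inv (w : kˣ) : bw w * bw w⁻¹ = (1 : G3 k) := by
  rw [← bw_mul, mul_inv_cancel, bw_one]

theorem bw_inv (w : kˣ) : (bw w)⁻¹ = (bw w⁻¹ : G3 k) := inv_eq_of_mul_eq_one_right (bw_mul_inv w)

theorem tau_bw (w : kˣ) : tau k (bw w) = (bw w)⁻¹ := by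
  apply Subtype.ext
  change ((bw w)⁻¹).1.transpose = ((bw w)⁻¹).1
  rw [bw_inv]
  change (Matrix.diagonal _).transpose = Matrix.diagonal _
  rw [Matrix.diagonal_transpose]

theorem tau_bw_inv (w : kˣ) : tau k (bw w)⁻¹ = bw w := by
  rw [map_inv, tau_bw, inv_inv]

theorem tau_comp_comp {Γ : Type} [Group Γ] (q : Γ →* G3 k) :
    (tau k).comp ((tau k).comp q) = q := by
  ext1 γ
  exact tau_tau k (q γ)

end tau

/-! ### Moore sets contracted by the wall element -/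

section moore

variable {k : Type} [NontriviallyNormedField k]

theorem moore_root {i j : Fin 3} (hij : i ≠ j) :
    Moore (Set.range fun s : k => (Matrix.SpecialLinearGroup.transvection hij s : G3 k)) := by
  intro F _ _ _ σ a1 a2 ξ hξ
  refine H103.mooreSet_root (k := k) (n := Fin 3) (i := i) (j := j) hij F σ
    ⟨a1, fun ξ => ?_⟩ ξ hξ
  have h5 := (a2 ξ).tendsto 1
  rwa [map_one] at h5

/-- the elements contracted by `(bw w)⁻¹` -/
def NN (w : kˣ) : Set (G3 k) :=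
  {g | Tendsto (fun i : ℕ => (bw w)⁻¹ ^ i * g * ((bw w)⁻¹ ^ i)⁻¹) atTop (𝓝 1)}

/-- the elements contracted by `bw w` -/
def NN' (w : kˣ) : Set (G3 k) :=
  {g | Tendsto (fun i : ℕ => ((bw w)⁻¹ ^ i)⁻¹ * g * (bw w)⁻¹ ^ i) atTop (𝓝 1)}

/-- the centraliser -/
def LL (w : kˣ) : Set (G3 k) := {g | Commute ((bw w)⁻¹ : G3 k) g}

theorem root_mem (w : kˣ) (hw : ‖(w : k)‖ < 1) (s : k) :
    (Matrix.SpecialLinearGroup.transvection (show (0 : Fin 3) ≠ 1 by decide) s : G3 k) ∈ NN w := by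
  have h1 := H801.tendsto_of_lt (w := w⁻¹) (show (0 : Fin 3) ≠ 1 by decide) s (by
    rw [H801.bd_inv, H801.bd_inv, inv_inv, mul_comm]
    exact H801.ratio_lt w hw (by decide))
  rw [← H801.bw_inv, inv_inv] at h1
  refine h1.congr fun N => ?_
  rw [inv_pow, inv_inv]

theorem root_mem' (w : kˣ) (hw : ‖(w : k)‖ < 1) (s : k) :
    (Matrix.SpecialLinearGroup.transvection (show (1 : Fin 3) ≠ 0 by decide) s : G3 k) ∈ NN' w := by
  have h1 := H801.tendsto_of_lt (w := w) (show (1 : Fin 3) ≠ 0 by decide) s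
    (H801.ratio_lt w hw (by decide))
  refine h1.congr fun N => ?_
  rw [inv_pow, inv_inv]

theorem moore_NN (w : kˣ) (hw : ‖(w : k)‖ < 1) : Moore (NN w) := by
  refine H76.Dicho.Moore.mono (moore_root (show (0 : Fin 3) ≠ 1 by decide)) ?_
  rintro _ ⟨s, rfl⟩
  exact root_mem w hw s

theorem moore_NN' (w : kˣ) (hw : ‖(w : k)‖ < 1) : Moore (NN' w) := by
  refine H76.Dicho.Moore.mono (moore_root (show (1 : Fin 3) ≠ 0 by decide)) ?_
  rintro _ ⟨s, rfl⟩
  exact root_mem' w hw s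

theorem closure_top (w : kˣ) (hw : ‖(w : k)‖ < 1) :
    Subgroup.closure (NN w ∪ NN' w ∪ LL w) = (⊤ : Subgroup (G3 k)) := by
  have h1 := H801.closure_wall w hw (Q := NN w ∪ LL w) (Q' := NN' w)
    (fun g hg => Or.inr hg.symm.inv_left) (fun g hg => Or.inl ?_) (fun g hg => ?_)
  · rw [← h1]
    congr 1
    ext x
    simp only [Set.mem_union]
    tauto
  · refine hg.congr fun N => ?_
    rw [← inv_pow, inv_inv, inv_pow]
  · refine hg.congr fun N => ?_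
    rw [inv_pow, inv_inv]

end moore

variable {k : Type} [NontriviallyNormedField k] [ProperSpace k] {Γ K : Type}
  [Group Γ] [NormedAddCommGroup K] [InnerProductSpace ℂ K] [CompleteSpace K]

/-- Everything about one leg which does not depend on the target `q`. -/
structure Src (w : kˣ) (π : G3 k →* (K →L[ℂ] K)) (lam : Γ →* (K →L[ℂ] K))
    (W : Set (K →L[ℂ] K)) (Ω : K) (mp : (Γ → ℝ) → (K →L[ℂ] K)) (Bd Bf : Set K) : Prop where
  pic : Pic π lam W Ω
  hw : ‖(w : k)‖ < 1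
  mcov : ∀ γ (F : Γ → ℝ), (∀ g, |F g| ≤ 1) → lam γ * mp F * lam γ⁻¹ = mp (fun g => F (γ⁻¹ * g))
  mW : ∀ x ∈ W, ∀ F : Γ → ℝ, (∀ g, |F g| ≤ 1) → x * mp F = mp F * x
  slow : Slow mp (fun g => π g) Bd
  loc : Loc2 mp (fun g => π g) Bd Bf
  esc : Esc (st mp) (fun g => π g) Bd (Subgroup.zpowers (bw w)⁻¹) (pw (bw w)⁻¹)
  esc' : Esc (st mp) (fun g => π g) Bd (Subgroup.zpowers (bw w)⁻¹) (pw (bw w))
  sym : Sym mp (fun g => π g) Ω
  fin : ∀ ξ, ∀ ε : ℝ, 0 < ε → ∃ F : Finset Γ, ‖st mp ((F : Set Γ))ᶜ ξ‖ ≤ ε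
  om : Ω ∈ Bf

variable {w : kˣ} {π : G3 k →* (K →L[ℂ] K)} {lam : Γ →* (K →L[ℂ] K)} {W : Set (K →L[ℂ] K)}
  {Ω : K} {mp : (Γ → ℝ) → (K →L[ℂ] K)} {Bd Bf : Set K} {ms : G3 k → Set Γ → ℝ}
  {q : Γ →* G3 k} {G1 G2 : Γ → ℝ} {bp bp' : Γ → PP k}

/-- The limits along all conjugates, for a representation. -/
theorem limAt_gen {π : G3 k →* (K →L[ℂ] K)} (hw : ‖(w : k)‖ < 1)
    (h : SysF mp (fun g => π g) Bd ms (Subgroup.zpowers (bw w)⁻¹) G1 G2)
    (hL : Leg mp (fun g => π g) (fun γ => lam γ) W)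
    (hG : @GeoF Γ (PP k) _ _ (MulAction.compHom (PP k) q) G1 G2 bp)
    (hS : Slow mp (fun g => π g) Bd) (hl : Loc2 mp (fun g => π g) Bd Bf)
    (he : Esc (st mp) (fun g => π g) Bd (Subgroup.zpowers (bw w)⁻¹) (pw (bw w)⁻¹))
    (hfu : Full (st mp) (fun g => π g) G1 G2 (pw (bw w)⁻¹))
    (hcut : DomCut q G1 G2 bp) (hπ : ∀ g, adjoint (π g) = π g⁻¹) :
    ∃ E₀ : G3 k → (CP k →⋆ₐ[ℂ] (K →L[ℂ] K)), LimAt w π lam W (st mp) q E₀ := by
  letI := MulAction.compHom (PP k) q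
  have hfin : ∀ r, (FF G1 G2 r).Finite := hG.fin
  obtain ⟨E, hE⟩ := limAt_eng (q := q) (Bd := Bd) (Bf := Bf) hw h hL hG hS he
    (fun F C hF hN v ξ η => lu1 h hl hfin he F C hF hN v ξ η)
    (fun F C hF hN v ξ η => lu2 h hl hfin he hF hN v ξ η)
    hfu hl.sub hl.dense hl.map (fun v => loc_at hl v) hcut hπ
  exact ⟨_, hE⟩

/-- covariance of the family -/
theorem fam_pcov {π : G3 k →* (K →L[ℂ] K)} {m : Set Γ → (K →L[ℂ] K)}
    {E₀ : G3 k → (CP k →⋆ₐ[ℂ] (K →L[ℂ] K))} (hE : LimAt w π lam W m q E₀) (g : G3 k) (a : PP k)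
    (f : CP k) : π g * famE E₀ a f * π g⁻¹ = famE E₀ (g • a) f := by
  obtain ⟨v, rfl⟩ := trans_pt a
  rw [hE.fam_eq, ← mul_smul, hE.fam_eq, hE.conj]

/-- **Points.** -/
theorem efam_points (S : Src w π lam W Ω mp Bd Bf)
    (h : SysF mp (fun g => π g) Bd ms (Subgroup.zpowers (bw w)⁻¹) G1 G2)
    (hG : @GeoF Γ (PP k) _ _ (MulAction.compHom (PP k) q) G1 G2 bp) (hcut : DomCut q G1 G2 bp)
    (hNI : NIS fun (γ : Γ) (x : PP k) => q γ • x)
    (hfu : Full (st mp) (fun g => π g) G1 G2 (pw (bw w)⁻¹)) :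
    ∃ E, EFam w π lam W (st mp) q E := by
  obtain ⟨E₀, hE⟩ := limAt_gen S.hw h (leg_of_pic S.pic S.mcov S.mW) hG S.slow S.loc S.esc hfu
    hcut S.pic.adjP
  exact ⟨_, hE.efam (agr_points S.pic hNI (fun a f => hE.cm _ f) (fun γ a f => hE.cov γ _ f)
    (fun g a f => fam_pcov hE g a f))⟩

theorem loc2_comp {θ : G3 k →* G3 k} {R : G3 k → (K →L[ℂ] K)} (h : Loc2 mp R Bd Bf) :
    Loc2 mp (fun d => R (θ d)) Bd Bf where
  sub := h.sub
  dense := h.dense
  map v := h.map (θ v)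
  loc v := h.loc (θ v)

theorem zp_le (w : kˣ) : Subgroup.zpowers ((bw w)⁻¹ : G3 k) ≤
    (Subgroup.zpowers ((bw w)⁻¹ : G3 k)).comap (tau k) := by
  rw [Subgroup.zpowers_le, Subgroup.mem_comap, tau_bw_inv]
  have h1 := Subgroup.inv_mem _ (Subgroup.mem_zpowers ((bw w)⁻¹ : G3 k))
  rwa [inv_inv] at h1

theorem pw_tau (w : kˣ) : (pw ((bw w)⁻¹ : G3 k)).map (tau k) = pw (bw w) := by
  rw [pw, H76.TransD.map_pow_hom, tau_bw_inv]
  rfl

/-- **Lines.** -/
theorem efam_lines (S : Src w π lam W Ω mp Bd Bf)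
    (h : SysF mp (fun g => π g) Bd ms (Subgroup.zpowers (bw w)⁻¹) G1 G2)
    (hG : @GeoF Γ (PP k) _ _ (MulAction.compHom (PP k) ((tau k).comp q)) G1 G2 bp)
    (hcut : DomCut ((tau k).comp q) G1 G2 bp)
    (hNI : NIS fun (γ : Γ) (x : PP k) => ((tau k).comp q) γ • x)
    (hfu : Full (st mp) (fun g => π g) G1 G2 (pw (bw w))) :
    ∃ F, EFam w (π.comp (tau k)) lam W (st mp) ((tau k).comp q) F := by
  have hL : Leg mp (fun g => π g) (fun γ => lam γ) W := leg_of_pic S.pic S.mcov S.mW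
  have h' : SysF mp (fun g => (π.comp (tau k)) g) Bd (fun d => ms (tau k d))
      (Subgroup.zpowers (bw w)⁻¹) G1 G2 :=
    H76.TransD.sysF_sub (H76.TransD.sysF_comp (tau k) h) (zp_le w)
  have hL' : Leg mp (fun g => (π.comp (tau k)) g) (fun γ => lam γ) W :=
    H76.TransD.leg_comp (tau k) hL
  have hS' : Slow mp (fun g => (π.comp (tau k)) g) Bd := by
    refine H76.TransD.slow_comp (tau k) S.slow ?_
    have h1 := (tau_cont (k := k)).tendsto 1
    rwa [map_one] at h1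
  have hl' : Loc2 mp (fun g => (π.comp (tau k)) g) Bd Bf := loc2_comp (θ := tau k) S.loc
  have he' : Esc (st mp) (fun g => (π.comp (tau k)) g) Bd (Subgroup.zpowers (bw w)⁻¹)
      (pw (bw w)⁻¹) := by
    refine H76.TransD.esc_sub (H76.TransD.esc_comp (A := Subgroup.zpowers (bw w)⁻¹) (tau k) ?_)
      (pw_mem _)
    rw [pw_tau]
    exact S.esc'
  have hfu' : Full (st mp) (fun g => (π.comp (tau k)) g) G1 G2 (pw (bw w)⁻¹) := by
    refine (H76.TransD.full_comp (tau k)).2 ?_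
    rw [pw_tau]
    exact hfu
  obtain ⟨E₀, hE⟩ := limAt_gen S.hw h' hL' hG hS' hl' he' hfu' hcut fun g => by
    change adjoint (π (tau k g)) = π (tau k g⁻¹)
    rw [map_inv, S.pic.adjP]
  exact ⟨_, hE.efam (agr_lines S.pic hNI (fun a f => hE.cm _ f) (fun γ a f => hE.cov γ _ f)
    (fun g a f => fam_pcov hE g a f))⟩

/-- The field `nws`, from the fullness (the argument of helper107 and helper632). -/
theorem nws_dis (S : Src w π lam W Ω mp Bd Bf)
    (h : SysF mp (fun g => π g) Bd ms (Subgroup.zpowers (bw w)⁻¹) G1 G2)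
    (hfu : Full (st mp) (fun g => π g) G1 G2 (pw (bw w)⁻¹))
    (hgap : ∀ u, ∃ C, ∀ g, |G2 (g * u) - G2 g| ≤ C)
    (hNW : ∀ r : ℝ, ∃ R : ℝ, ∀ γ, G2 γ ≤ r → NW R (q γ)) : NWS w π Ω (st mp) q := by
  have hf : Full (st mp) (fun g => π g) G1 G2 (map (fun N : ℕ => (bw w ^ N)⁻¹) atTop) := by
    have e : map (fun N : ℕ => (bw w ^ N)⁻¹) atTop = pw ((bw w)⁻¹ : G3 k) := by
      rw [pw]
      congr 1
      funext N
      rw [inv_pow]
    rw [e]
    exact hfu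
  intro g ε hε
  have h1 : ∀ ε : ℝ, 0 < ε → ∃ r, ∀ N : ℕ,
      ‖st mp {γ | r < G2 γ} (π (bw w ^ N)⁻¹ (π g⁻¹ Ω))‖ ≤ ε := fun ε hε =>
    H107.tail_base h.sys (wN := fun N : ℕ => (bw w ^ N)⁻¹) (fun N => by
      rw [← inv_pow]; exact Subgroup.pow_mem _ (Subgroup.mem_zpowers _) N) hf S.fin (π g⁻¹ Ω) hε
  obtain ⟨r, hr⟩ := H107.tail_shift h.sys.prj (loc_at S.loc g) hgap
    (fun N : ℕ => π (bw w ^ N)⁻¹ (π g⁻¹ Ω)) (fun N => S.loc.map _ _ (S.loc.map _ _ S.om)) h1 hε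
  obtain ⟨R, hR⟩ := hNW r
  refine ⟨R, fun N => ?_⟩
  have e : π (g * bw w ^ N * g⁻¹)⁻¹ Ω = π g (π (bw w ^ N)⁻¹ (π g⁻¹ Ω)) := by
    have : (g * bw w ^ N * g⁻¹)⁻¹ = g * ((bw w ^ N)⁻¹ * g⁻¹) := by group
    rw [this, map_mul, map_mul]
    rfl
  rw [e]
  refine (h.sys.prj.mono ?_ _).trans (hr N)
  intro γ hγ
  by_contra h3
  exact hγ (hR γ (not_lt.mp h3))

/-- **The calculi of points and lines, in the type given by the fullness.** -/
theorem efams (S : Src w π lam W Ω mp Bd Bf)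
    (h : SysF mp (fun g => π g) Bd ms (Subgroup.zpowers (bw w)⁻¹) G1 G2)
    (hG : @GeoF Γ (PP k) _ _ (MulAction.compHom (PP k) q) G1 G2 bp) (hcut : DomCut q G1 G2 bp)
    (hNI : NIS fun (γ : Γ) (x : PP k) => q γ • x)
    (hG' : @GeoF Γ (PP k) _ _ (MulAction.compHom (PP k) ((tau k).comp q)) G2 G1 bp')
    (hcut' : DomCut ((tau k).comp q) G2 G1 bp')
    (hNI' : NIS fun (γ : Γ) (x : PP k) => ((tau k).comp q) γ • x)
    (hNW : ∀ r : ℝ, ∃ R : ℝ, ∀ γ, G2 γ ≤ r → NW R (q γ))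
    (hfu : Full (st mp) (fun g => π g) G1 G2 (pw (bw w)⁻¹))
    (hfu' : Full (st mp) (fun g => π g) G2 G1 (pw (bw w))) :
    NWS w π Ω (st mp) q ∧ ∃ E F, EFam w π lam W (st mp) q E ∧
      EFam w (π.comp (tau k)) lam W (st mp) ((tau k).comp q) F := by
  obtain ⟨E, hE⟩ := efam_points S h hG hcut hNI hfu
  obtain ⟨F, hF⟩ := efam_lines S (H76.TransD.sysF_swap h) hG' hcut' hNI' hfu'
  refine ⟨nws_dis S h hfu (fun u => ?_) hNW, E, F, hE, hF⟩
  letI := MulAction.compHom (PP k) q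
  obtain ⟨C, hC⟩ := hG.gap 1 u
  exact ⟨C, fun g => by have := (hC g).2; rwa [one_mul] at this⟩

/-- **The type dichotomy and the calculi.** -/
theorem dis (S : Src w π lam W Ω mp Bd Bf)
    (h : SysF mp (fun g => π g) Bd ms (Subgroup.zpowers (bw w)⁻¹) G1 G2)
    (hG : @GeoF Γ (PP k) _ _ (MulAction.compHom (PP k) q) G1 G2 bp) (hcut : DomCut q G1 G2 bp)
    (hNI : NIS fun (γ : Γ) (x : PP k) => q γ • x)
    (hG' : @GeoF Γ (PP k) _ _ (MulAction.compHom (PP k) ((tau k).comp q)) G2 G1 bp')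
    (hcut' : DomCut ((tau k).comp q) G2 G1 bp')
    (hNI' : NIS fun (γ : Γ) (x : PP k) => ((tau k).comp q) γ • x)
    (hNW : ∀ r : ℝ, ∃ R : ℝ, ∀ γ, G2 γ ≤ r → NW R (q γ))
    (hNW' : ∀ r : ℝ, ∃ R : ℝ, ∀ γ, G1 γ ≤ r → NW R (((tau k).comp q) γ))
    {C : ℝ} (hC : ∀ g, |G1 g⁻¹ - G2 g| ≤ C ∧ |G2 g⁻¹ - G1 g| ≤ C) :
    ∃ q' : Γ →* G3 k, (q' = q ∨ q' = (tau k).comp q) ∧ NWS w π Ω (st mp) q' ∧
      ∃ E F, EFam w π lam W (st mp) q' E ∧
        EFam w (π.comp (tau k)) lam W (st mp) ((tau k).comp q') F := by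
  have hfin : ∀ r, (FF G1 G2 r).Finite := by
    letI := MulAction.compHom (PP k) q
    exact hG.fin
  have key : (Full (st mp) (fun g => π g) G1 G2 (pw (bw w)⁻¹) ∧
      Full (st mp) (fun g => π g) G2 G1 (pw (bw w))) ∨
      (Full (st mp) (fun g => π g) G2 G1 (pw (bw w)⁻¹) ∧
      Full (st mp) (fun g => π g) G1 G2 (pw (bw w))) := by
    letI := MulAction.compHom (PP k) q
    have he' : Esc (st mp) (fun g => π g) Bd (Subgroup.zpowers (bw w)⁻¹)
        (pw ((bw w)⁻¹)⁻¹) := by rw [inv_inv]; exact S.esc'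
    have h1 := dicho_pic (bp := bp) S.pic (b := (bw w)⁻¹) h hG S.mcov S.mW S.slow S.esc he'
      (fun F C hF hN v ξ η => lu1 h S.loc hfin S.esc F C hF hN v ξ η)
      (fun F C hF hN v ξ η => lu1 h S.loc hfin he' F C hF hN v ξ η)
      S.sym hC hNI (N := NN w) (N' := NN' w) (L := LL w) (fun n hn => hn) (fun n hn => hn)
      (fun n hn => hn) (moore_NN w S.hw) (moore_NN' w S.hw) (closure_top w S.hw)
    rw [inv_inv] at h1
    exact h1
  rcases key with ⟨f1, f2⟩ | ⟨f1, f2⟩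
  · exact ⟨q, Or.inl rfl, efams S h hG hcut hNI hG' hcut' hNI' hNW f1 f2⟩
  · refine ⟨(tau k).comp q, Or.inr rfl, ?_⟩
    have e := tau_comp_comp q
    refine efams (bp := bp') (bp' := bp) S (H76.TransD.sysF_swap h) hG' hcut' hNI' ?_ ?_ ?_ hNW'
      f1 f2
    · rw [e]; exact hG
    · rw [e]; exact hcut
    · rw [e]; exact hNI

end Vale.Agent.P092.H805.Dis
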