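import Vale.Agent.P092.H156.FO
import Mathlib.Analysis.InnerProductSpace.ProdL2
import Mathlib.MeasureTheory.Function.ConvergenceInMeasure

/-!
P092 (helper805), block [Q-RES], part 1.  For a bounded measurable field `b : G → B(K)` the operator
`R = (1 + T* T)⁻¹`, `T ζ = (x ↦ b x ζ)`, as the corner of the projection on the graph of `T`.
-/

set_option linter.all false

open scoped InnerProductSpace ENNReal
open Filter Topology ContinuousLinearMap MeasureTheory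

namespace Vale.Agent.P092.H805

open Vale.Agent.P092.H156.Sm (integral_inner_toLp integrable_inner_of_memLp norm_sq_toLp)

variable {G K : Type} [MeasurableSpace G] [NormedAddCommGroup K] [InnerProductSpace ℂ K]
  [CompleteSpace K] {μ : Measure G} {b : G → K →L[ℂ] K}

/-- The graph of `ζ ↦ (x ↦ b x ζ)`. -/
noncomputable def Gr (μ : Measure G) (b : G → K →L[ℂ] K) :
    Submodule ℂ (WithLp 2 (K × Lp K 2 μ)) where
  carrier := {z | ∀ᵐ x ∂μ, b x z.fst = z.snd x}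
  add_mem' := by
    intro z w hz hw
    have h1 : ((z + w).snd : G → K) =ᵐ[μ] z.snd + w.snd := Lp.coeFn_add z.snd w.snd
    simp only [Set.mem_setOf_eq] at hz hw ⊢
    filter_upwards [hz, hw, h1] with x e1 e2 e3
    rw [e3, Pi.add_apply, ← e1, ← e2, ← map_add]
    rfl
  zero_mem' := by
    have h1 : ((0 : Lp K 2 μ) : G → K) =ᵐ[μ] 0 := Lp.coeFn_zero K 2 μ
    simp only [Set.mem_setOf_eq]
    filter_upwards [h1] with x e1
    change b x 0 = ((0 : Lp K 2 μ) : G → K) x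
    rw [e1, map_zero]
    rfl
  smul_mem' := by
    intro c z hz
    have h1 : ((c • z).snd : G → K) =ᵐ[μ] c • (z.snd : G → K) := Lp.coeFn_smul c z.snd
    simp only [Set.mem_setOf_eq] at hz ⊢
    filter_upwards [hz, h1] with x e1 e2
    rw [e2, Pi.smul_apply, ← e1, ← map_smul]
    rfl

theorem mem_Gr {z : WithLp 2 (K × Lp K 2 μ)} :
    z ∈ Gr μ b ↔ ∀ᵐ x ∂μ, b x z.fst = z.snd x := Iff.rfl

theorem isClosed_Gr : IsClosed (Gr μ b : Set (WithLp 2 (K × Lp K 2 μ))) := by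
  refine IsSeqClosed.isClosed ?_
  intro z w hz hw
  have h1 : Tendsto (fun n => (z n).fst) atTop (𝓝 w.fst) :=
    ((WithLp.fstL 2 ℂ K (Lp K 2 μ)).continuous.tendsto w).comp hw
  have h2 : Tendsto (fun n => (z n).snd) atTop (𝓝 w.snd) :=
    ((WithLp.sndL 2 ℂ K (Lp K 2 μ)).continuous.tendsto w).comp hw
  obtain ⟨ns, hns, h3⟩ := (tendstoInMeasure_of_tendsto_Lp h2).exists_seq_tendsto_ae
  have h4 : ∀ᵐ x ∂μ, ∀ n, b x (z n).fst = (z n).snd x := ae_all_iff.2 fun n => hz n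
  change ∀ᵐ x ∂μ, b x w.fst = w.snd x
  filter_upwards [h3, h4] with x e3 e4
  have h5 : Tendsto (fun i => b x (z (ns i)).fst) atTop (𝓝 (b x w.fst)) :=
    ((b x).continuous.tendsto _).comp (h1.comp hns.tendsto_atTop)
  refine tendsto_nhds_unique h5 ?_
  simpa only [e4] using e3

instance : CompleteSpace (Gr μ b) := isClosed_Gr.completeSpace_coe

/-- The first inclusion. -/
noncomputable def inl (μ : Measure G) : K →L[ℂ] WithLp 2 (K × Lp K 2 μ) :=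
  ((WithLp.prodContinuousLinearEquiv 2 ℂ K (Lp K 2 μ)).symm : (K × Lp K 2 μ) →L[ℂ] _).comp
    (ContinuousLinearMap.inl ℂ K (Lp K 2 μ))

theorem inl_fst (ζ : K) : (inl μ ζ).fst = ζ := rfl
theorem inl_snd (ζ : K) : (inl μ ζ).snd = 0 := rfl

/-- `(1 + T* T)⁻¹`. -/
noncomputable def Res (μ : Measure G) (b : G → K →L[ℂ] K) : K →L[ℂ] K :=
  ((WithLp.fstL 2 ℂ K (Lp K 2 μ)).comp (Gr μ b).starProjection).comp (inl μ)

theorem res_apply (ζ : K) : Res μ b ζ = ((Gr μ b).starProjection (inl μ ζ)).fst := rfl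

theorem res_ae (ζ : K) :
    ∀ᵐ x ∂μ, b x (Res μ b ζ) = ((Gr μ b).starProjection (inl μ ζ)).snd x :=
  mem_Gr.1 (Submodule.starProjection_apply_mem _ _)

theorem res_memLp (ζ : K) : MemLp (fun x => b x (Res μ b ζ)) 2 μ :=
  (memLp_congr_ae (res_ae ζ)).2 (Lp.memLp _)

theorem res_toLp (ζ : K) : (res_memLp (μ := μ) (b := b) ζ).toLp _ =
    ((Gr μ b).starProjection (inl μ ζ)).snd := by
  apply Lp.ext
  filter_upwards [(res_memLp (μ := μ) (b := b) ζ).coeFn_toLp, res_ae (μ := μ) (b := b) ζ]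
    with x e1 e2
  rw [e1, e2]

theorem res_norm (ζ : K) :
    ‖Res μ b ζ‖ ^ 2 + ‖(res_memLp (μ := μ) (b := b) ζ).toLp _‖ ^ 2 ≤ ‖ζ‖ ^ 2 := by
  rw [res_toLp, res_apply]
  have h1 := WithLp.prod_norm_sq_eq_of_L2 ((Gr μ b).starProjection (inl μ ζ))
  rw [← h1]
  have h2 : ‖(Gr μ b).starProjection (inl μ ζ)‖ ≤ ‖inl μ ζ‖ :=
    Submodule.norm_starProjection_apply_le _ _
  have h3 : ‖inl μ ζ‖ ^ 2 = ‖ζ‖ ^ 2 := by
    rw [WithLp.prod_norm_sq_eq_of_L2, inl_fst, inl_snd, norm_zero]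
    ring
  rw [← h3]
  gcongr

theorem res_norm_le (ζ : K) : ‖Res μ b ζ‖ ≤ ‖ζ‖ := by
  have h1 := res_norm (μ := μ) (b := b) ζ
  have h2 : ‖Res μ b ζ‖ ^ 2 ≤ ‖ζ‖ ^ 2 := by
    have := sq_nonneg ‖(res_memLp (μ := μ) (b := b) ζ).toLp _‖
    linarith
  exact (abs_le_of_sq_le_sq' h2 (norm_nonneg _)).2

theorem res_norm_toLp_le (ζ : K) : ‖(res_memLp (μ := μ) (b := b) ζ).toLp _‖ ≤ ‖ζ‖ := by
  have h1 := res_norm (μ := μ) (b := b) ζ
  have h2 : ‖(res_memLp (μ := μ) (b := b) ζ).toLp _‖ ^ 2 ≤ ‖ζ‖ ^ 2 := by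
    have := sq_nonneg ‖Res μ b ζ‖
    linarith
  exact (abs_le_of_sq_le_sq' h2 (norm_nonneg _)).2

/-- The defining identity: `⟨ζ, η⟩ = ⟨Rζ, η⟩ + ⟨T R ζ, T η⟩` for `η` in the domain. -/
theorem res_spec (ζ η : K) (hη : MemLp (fun x => b x η) 2 μ) :
    ⟪ζ, η⟫_ℂ = ⟪Res μ b ζ, η⟫_ℂ + ∫ x, ⟪b x (Res μ b ζ), b x η⟫_ℂ ∂μ := by
  set w : WithLp 2 (K × Lp K 2 μ) := WithLp.toLp 2 (η, hη.toLp _) with hw
  have hwG : w ∈ Gr μ b := by
    rw [mem_Gr]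
    filter_upwards [hη.coeFn_toLp] with x e1
    exact e1.symm
  have h1 : ⟪inl μ ζ - (Gr μ b).starProjection (inl μ ζ), w⟫_ℂ = 0 :=
    Submodule.starProjection_inner_eq_zero (K := Gr μ b) _ w hwG
  rw [inner_sub_left, sub_eq_zero, WithLp.prod_inner_apply, WithLp.prod_inner_apply] at h1
  have e1 : (inl μ ζ).fst = ζ := rfl
  have e2 : (inl μ ζ).snd = 0 := rfl
  have e3 : w.fst = η := rfl
  have e4 : w.snd = hη.toLp _ := rfl
  have e5 : ⟪((Gr μ b).starProjection (inl μ ζ)).snd, hη.toLp _⟫_ℂ =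
      ∫ x, ⟪b x (Res μ b ζ), b x η⟫_ℂ ∂μ := by
    rw [← res_toLp, integral_inner_toLp (res_memLp ζ) hη]
  change ⟪(inl μ ζ).fst, w.fst⟫_ℂ + ⟪(inl μ ζ).snd, w.snd⟫_ℂ =
    ⟪((Gr μ b).starProjection (inl μ ζ)).fst, w.fst⟫_ℂ +
      ⟪((Gr μ b).starProjection (inl μ ζ)).snd, w.snd⟫_ℂ at h1
  rw [e1, e2, e3, e4, e5, inner_zero_left, add_zero] at h1
  exact h1

/-- Uniqueness. -/
theorem res_unique {ζ ξ : K} (hξ : MemLp (fun x => b x ξ) 2 μ)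
    (h : ∀ η : K, MemLp (fun x => b x η) 2 μ →
      ⟪ζ, η⟫_ℂ = ⟪ξ, η⟫_ℂ + ∫ x, ⟪b x ξ, b x η⟫_ℂ ∂μ) : Res μ b ζ = ξ := by
  have hR := res_memLp (μ := μ) (b := b) ζ
  have hd : MemLp (fun x => b x (Res μ b ζ - ξ)) 2 μ := by
    have h1 := hR.sub hξ
    refine (memLp_congr_ae (Eventually.of_forall fun x => ?_)).2 h1
    simp
  have h1 := res_spec ζ _ hd
  rw [h _ hd] at h1
  have i1 := integrable_inner_of_memLp hR hd
  have i2 := integrable_inner_of_memLp hξ hd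
  have h2 : ⟪Res μ b ζ - ξ, Res μ b ζ - ξ⟫_ℂ +
      ∫ x, ⟪b x (Res μ b ζ - ξ), b x (Res μ b ζ - ξ)⟫_ℂ ∂μ = 0 := by
    have e1 : ∫ x, ⟪b x (Res μ b ζ - ξ), b x (Res μ b ζ - ξ)⟫_ℂ ∂μ =
        (∫ x, ⟪b x (Res μ b ζ), b x (Res μ b ζ - ξ)⟫_ℂ ∂μ) -
          ∫ x, ⟪b x ξ, b x (Res μ b ζ - ξ)⟫_ℂ ∂μ := by
      rw [← integral_sub i1 i2]
      refine integral_congr_ae (Eventually.of_forall fun x => ?_)
      simp only
      rw [← inner_sub_left, ← map_sub]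
    rw [e1, inner_sub_left]
    linear_combination -h1
  rw [integral_inner_toLp hd hd, inner_self_eq_norm_sq_to_K, inner_self_eq_norm_sq_to_K] at h2
  have h3 : ‖Res μ b ζ - ξ‖ ^ 2 + ‖hd.toLp _‖ ^ 2 = 0 := by
    have h3' : ((‖Res μ b ζ - ξ‖ ^ 2 + ‖hd.toLp _‖ ^ 2 : ℝ) : ℂ) = 0 := by
      push_cast
      exact h2
    exact Complex.ofReal_eq_zero.1 h3'
  have h4 : ‖Res μ b ζ - ξ‖ ^ 2 = 0 := by
    nlinarith [sq_nonneg ‖Res μ b ζ - ξ‖, sq_nonneg ‖hd.toLp _‖]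
  have h5 : ‖Res μ b ζ - ξ‖ = 0 := by simpa using h4
  exact sub_eq_zero.1 (norm_eq_zero.1 h5)

/-- `R` is symmetric. -/
theorem res_symm (ζ η : K) : ⟪Res μ b ζ, η⟫_ℂ = ⟪ζ, Res μ b η⟫_ℂ := by
  have h1 := res_spec ζ (Res μ b η) (res_memLp η)
  have h2 := res_spec η (Res μ b ζ) (res_memLp ζ)
  rw [h1, ← inner_conj_symm, h2, map_add, inner_conj_symm, ← integral_conj]
  congr 1
  refine integral_congr_ae (Eventually.of_forall fun x => ?_)
  simp only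
  rw [inner_conj_symm]

end Vale.Agent.P092.H805
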