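import Vale.Agent.P092.H805.HalfK
import Vale.Agent.P092.H534.NWK
import Vale.Agent.P092.H725.SizeP
import Vale.Agent.P092.H103.PicI
import Vale.Agent.P092.SD.Flip

/-!
P092, Team D, block (8): `SD.HalfStmt`, from `H805/HalfK` (source model and dichotomy),
`H534/NWK` (near-wall masses), `H725/SizeP`, `H103/PicI`.
-/

set_option linter.all false

open scoped InnerProductSpace ENNReal LinearAlgebra.Projectivization
open Filter Topology ContinuousLinearMap MeasureTheory TopologicalSpace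

namespace Vale.Agent.P092.H805.HalfR

open Vale.Agent.P092.SD Vale.Agent.P092.SR Vale.Agent.P092.H160
open Vale.Agent.P092.RC (VR arep_VR VR_one KK pic lam₁ lam₂ XX Om)
open Vale.Agent.P092.H805.HalfK

theorem locK_real : H933.LocK ℝ := .real (RingEquiv.refl ℝ) fun _ => rfl

/-- **Block (8)**: the first leg of the picture over `ℝ`. -/
theorem halfStmt : HalfStmt := by
  intro _ _ _ _ Γ _ _ _ _ ν _ hν hΓ hicc Λ _ _ hΛ α hα
  obtain ⟨w, hw⟩ : ∃ w : ℝˣ, ‖(w : ℝ)‖ < 1 :=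
    ⟨Units.mk0 (1 / 2) (by norm_num), by
      rw [Units.val_mk0, Real.norm_eq_abs, abs_of_pos (by norm_num)]; norm_num⟩
  obtain ⟨q, E, F, -, h⟩ := half_GK (μ := (volume : Measure ℝ)) hν hα hw hΛ
    (fun ε hε => H534.GK.nrm_bwK Γ ν hν locK_real (arep_VR hα) (cov_VR hα)
      (fun A q => cov_lx hα A q) hw Γ.subtype (disc_sub Γ) hε)
    (fun q _ => H725.size₁ hν hα hΛ (H103.bF₁ hα) (H103.bF₁_ap hα) (H103.ms₁ hα) w q)
    (H103.orb₁ hν hα w)
  exact ⟨w, H103.mS₁ ν hα, q, E, F, h⟩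

end Vale.Agent.P092.H805.HalfR
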